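import Vale.Agent.Lib.P090.Defs

/-! General lemmas on the bounded approximation property. -/

namespace Vale.Agent.Lib.P090

variable {X : Type*} [NormedAddCommGroup X] [NormedSpace ℝ X]
variable {Y : Type*} [NormedAddCommGroup Y] [NormedSpace ℝ Y]

theorem exists_finset_span_of_finite (D : Set X) (S : Set X) (hS : S.Finite)
    (hSD : S ⊆ (Submodule.span ℝ D : Submodule ℝ X)) :
    ∃ F : Finset X, (F : Set X) ⊆ D ∧ S ⊆ (Submodule.span ℝ (F : Set X) : Submodule ℝ X) := by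
  classical
  induction S, hS using Set.Finite.induction_on with
  | empty => exact ⟨∅, by simp, by simp⟩
  | @insert a S _ _ ih =>
    obtain ⟨F, hFD, hSF⟩ := ih (fun x hx => hSD (Set.mem_insert_of_mem _ hx))
    obtain ⟨T, hTD, haT⟩ := Submodule.mem_span_finite_of_mem_span (hSD (Set.mem_insert _ _))
    refine ⟨F ∪ T, ?_, ?_⟩
    · rw [Finset.coe_union]
      exact Set.union_subset hFD hTD
    · rw [Finset.coe_union]
      intro x hx
      rcases Set.mem_insert_iff.mp hx with rfl | hx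
      · exact Submodule.span_mono Set.subset_union_right haT
      · exact Submodule.span_mono Set.subset_union_left (hSF hx)

/-- If a class `P` of operators of norm at most `Λ` contains, for every finite subset of a
set `D` with dense span, an operator fixing it pointwise, then the class approximates the
identity uniformly on compact sets. -/
theorem approx_of_fix (D : Set X)
    (hD : ∀ u : X, u ∈ closure ((Submodule.span ℝ D : Submodule ℝ X) : Set X))
    (P : (X →L[ℝ] X) → Prop) (Λ : ℝ) (hP : ∀ T, P T → ‖T‖ ≤ Λ)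
    (hfix : ∀ F : Finset X, (F : Set X) ⊆ D → ∃ T, P T ∧ ∀ u ∈ F, T u = u)
    (C : Set X) (hC : IsCompact C) (ε : ℝ) (hε : 0 < ε) :
    ∃ T, P T ∧ ∀ u ∈ C, ‖T u - u‖ < ε := by
  classical
  set Λ' : ℝ := max Λ 0 with hΛ'
  have hΛ'0 : 0 ≤ Λ' := le_max_right _ _
  set η : ℝ := ε / (2 * (Λ' + 1)) with hη
  have hηpos : 0 < η := by positivity
  obtain ⟨t, -, htfin, hcover⟩ := hC.finite_cover_balls hηpos
  have hs : ∀ c : X, ∃ v ∈ (Submodule.span ℝ D : Submodule ℝ X), dist c v < η := by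
    intro c
    exact Metric.mem_closure_iff.mp (hD c) η hηpos
  choose s hsD hsdist using hs
  obtain ⟨F, hFD, hSF⟩ := exists_finset_span_of_finite D (s '' t) (htfin.image s)
    (by rintro _ ⟨c, -, rfl⟩; exact hsD c)
  obtain ⟨T, hPT, hT⟩ := hfix F hFD
  refine ⟨T, hPT, fun u hu => ?_⟩
  have hTspan : ∀ v ∈ (Submodule.span ℝ (F : Set X) : Submodule ℝ X), T v = v := by
    intro v hv
    have := LinearMap.eqOn_span (f := (T : X →ₗ[ℝ] X)) (g := LinearMap.id)
      (s := (F : Set X)) (fun x hx => hT x hx) hv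
    simpa using this
  obtain ⟨c, hct, huc⟩ : ∃ c ∈ t, u ∈ Metric.ball c η := by
    have := hcover hu
    simpa using this
  have hv : T (s c) = s c := hTspan _ (hSF ⟨c, hct, rfl⟩)
  have h1 : ‖u - s c‖ < 2 * η := by
    have h2 : dist u c < η := huc
    have h3 := hsdist c
    calc ‖u - s c‖ = dist u (s c) := (dist_eq_norm _ _).symm
      _ ≤ dist u c + dist c (s c) := dist_triangle _ _ _
      _ < 2 * η := by linarith
  have h4 : T u - u = T (u - s c) - (u - s c) := by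
    rw [map_sub, hv]; abel
  have h5 : ‖T (u - s c)‖ ≤ Λ' * ‖u - s c‖ :=
    (T.le_opNorm _).trans (mul_le_mul_of_nonneg_right ((hP T hPT).trans (le_max_left _ _))
      (norm_nonneg _))
  calc ‖T u - u‖ = ‖T (u - s c) - (u - s c)‖ := by rw [h4]
    _ ≤ ‖T (u - s c)‖ + ‖u - s c‖ := norm_sub_le _ _
    _ ≤ (Λ' + 1) * ‖u - s c‖ := by linarith
    _ < (Λ' + 1) * (2 * η) := by
        apply mul_lt_mul_of_pos_left h1; linarith
    _ = ε := by
        rw [hη]; field_simp

theorem HasBAP.of_fix (D : Set X)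
    (hD : ∀ u : X, u ∈ closure ((Submodule.span ℝ D : Submodule ℝ X) : Set X)) (Λ : ℝ)
    (hfix : ∀ F : Finset X, (F : Set X) ⊆ D → ∃ T : X →L[ℝ] X,
      FiniteDimensional ℝ (LinearMap.range (T : X →ₗ[ℝ] X)) ∧ ‖T‖ ≤ Λ ∧ ∀ u ∈ F, T u = u) :
    HasBAP Λ X := by
  intro C hC ε hε
  obtain ⟨T, ⟨h1, h2⟩, h3⟩ := approx_of_fix D hD
    (fun T => FiniteDimensional ℝ (LinearMap.range (T : X →ₗ[ℝ] X)) ∧ ‖T‖ ≤ Λ) Λ
    (fun T hT => hT.2)
    (fun F hF => by
      obtain ⟨T, h1, h2, h3⟩ := hfix F hF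
      exact ⟨T, ⟨h1, h2⟩, h3⟩) C hC ε hε
  exact ⟨T, h1, h2, h3⟩

theorem HasBAP.mono {a b : ℝ} (hab : a ≤ b) (h : HasBAP a X) : HasBAP b X := by
  intro C hC ε hε
  obtain ⟨T, h1, h2, h3⟩ := h C hC ε hε
  exact ⟨T, h1, h2.trans hab, h3⟩

theorem finiteDimensional_range_comp (T : X →L[ℝ] X) (J : Y →L[ℝ] X) (P : X →L[ℝ] Y)
    (hT : FiniteDimensional ℝ (LinearMap.range (T : X →ₗ[ℝ] X))) :
    FiniteDimensional ℝ (LinearMap.range ((P.comp (T.comp J) : Y →L[ℝ] Y) : Y →ₗ[ℝ] Y)) := by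
  have hle : LinearMap.range ((P.comp (T.comp J) : Y →L[ℝ] Y) : Y →ₗ[ℝ] Y) ≤
      (LinearMap.range (T : X →ₗ[ℝ] X)).map (P : X →ₗ[ℝ] Y) := by
    rintro _ ⟨y, rfl⟩
    exact ⟨T (J y), ⟨J y, rfl⟩, rfl⟩
  have := hT
  exact Submodule.finiteDimensional_of_le hle

/-- The bounded approximation property passes to a complemented subspace, or more
generally along a pair of operators `J : Y → X`, `P : X → Y` with `P ∘ J = id`. -/
theorem HasBAP.of_retract (J : Y →L[ℝ] X) (P : X →L[ℝ] Y) (hPJ : ∀ y, P (J y) = y)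
    {a b c : ℝ} (hJ : ‖J‖ ≤ b) (hP : ‖P‖ ≤ c) (h : HasBAP a X) :
    HasBAP (c * a * b) Y := by
  intro C hC ε hε
  have hc0 : 0 ≤ c := (norm_nonneg P).trans hP
  have hb0 : 0 ≤ b := (norm_nonneg J).trans hJ
  obtain ⟨T, h1, h2, h3⟩ := h (J '' C) (hC.image J.continuous) (ε / (c + 1)) (by positivity)
  have ha0 : 0 ≤ a := (norm_nonneg T).trans h2
  refine ⟨P.comp (T.comp J), finiteDimensional_range_comp T J P h1, ?_, fun u hu => ?_⟩
  · calc ‖P.comp (T.comp J)‖ ≤ ‖P‖ * ‖T.comp J‖ := ContinuousLinearMap.opNorm_comp_le _ _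
      _ ≤ ‖P‖ * (‖T‖ * ‖J‖) := by
          gcongr; exact ContinuousLinearMap.opNorm_comp_le _ _
      _ ≤ c * (a * b) := by gcongr
      _ = c * a * b := by ring
  · have h4 := h3 (J u) ⟨u, hu, rfl⟩
    have h5 : (P.comp (T.comp J)) u - u = P (T (J u) - J u) := by
      rw [map_sub, hPJ]; rfl
    rw [h5]
    calc ‖P (T (J u) - J u)‖ ≤ ‖P‖ * ‖T (J u) - J u‖ := P.le_opNorm _
      _ ≤ c * (ε / (c + 1)) := by gcongr
      _ < ε := by
          rw [mul_div_assoc', div_lt_iff₀ (by positivity)]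
          nlinarith

/-- If `X` has the `b`-BAP for every `b > a`, then it has the `a`-BAP. -/
theorem HasBAP.of_forall_gt {a : ℝ} (h : ∀ b : ℝ, a < b → HasBAP b X) : HasBAP a X := by
  intro C hC ε hε
  obtain ⟨R, hR⟩ := hC.isBounded.exists_norm_le
  set R' : ℝ := max R 0 with hR'
  have hR'0 : 0 ≤ R' := le_max_right _ _
  have hR'2 : ∀ u ∈ C, ‖u‖ ≤ R' := fun u hu => (hR u hu).trans (le_max_left _ _)
  set δ : ℝ := ε / (2 * (R' + 1)) with hδ
  have hδpos : 0 < δ := by positivity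
  obtain ⟨T, h1, h2, h3⟩ := h (a + δ) (by linarith) C hC (ε / 2) (by positivity)
  have hab : 0 ≤ a + δ := (norm_nonneg T).trans h2
  have ha0 : 0 ≤ a := by
    by_contra hneg
    have hneg' : a < 0 := not_le.mp hneg
    obtain ⟨T', -, h2', -⟩ := h (a / 2) (by linarith) C hC ε hε
    have := (norm_nonneg T').trans h2'
    linarith
  rcases le_or_gt a 0 with ha | ha
  · -- the zero operator works
    refine ⟨0, ?_, by simpa using ha0, fun u hu => ?_⟩
    · have : LinearMap.range ((0 : X →L[ℝ] X) : X →ₗ[ℝ] X) = ⊥ := by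
        ext x; simp
      rw [this]; infer_instance
    · have h4 := h3 u hu
      have h5 : ‖T u‖ ≤ δ * R' := by
        calc ‖T u‖ ≤ ‖T‖ * ‖u‖ := T.le_opNorm u
          _ ≤ (a + δ) * R' := by
              apply mul_le_mul h2 (hR'2 u hu) (norm_nonneg _) hab
          _ ≤ δ * R' := by
              apply mul_le_mul_of_nonneg_right _ hR'0; linarith
      have h6 : δ * R' < ε / 2 := by
        rw [hδ, div_mul_eq_mul_div, div_lt_div_iff₀ (by positivity) (by positivity)]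
        nlinarith
      calc ‖(0 : X →L[ℝ] X) u - u‖ = ‖u‖ := by simp
        _ = ‖T u - (T u - u)‖ := by congr 1; abel
        _ ≤ ‖T u‖ + ‖T u - u‖ := norm_sub_le _ _
        _ < ε := by linarith
  · have hapos : 0 < a + δ := by linarith
    set r : ℝ := a / (a + δ) with hr
    have hr0 : 0 ≤ r := by positivity
    have hr1 : r * (a + δ) = a := by rw [hr]; field_simp
    refine ⟨r • T, ?_, ?_, fun u hu => ?_⟩
    · have hle : LinearMap.range ((r • T : X →L[ℝ] X) : X →ₗ[ℝ] X) ≤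
          LinearMap.range (T : X →ₗ[ℝ] X) := by
        rintro _ ⟨x, rfl⟩
        exact ⟨r • x, by simp⟩
      have := h1
      exact Submodule.finiteDimensional_of_le hle
    · calc ‖r • T‖ = r * ‖T‖ := by rw [norm_smul, Real.norm_of_nonneg hr0]
        _ ≤ r * (a + δ) := by gcongr
        _ = a := hr1
    · have h4 := h3 u hu
      have h5 : ‖T u‖ ≤ (a + δ) * R' :=
        (T.le_opNorm u).trans (mul_le_mul h2 (hR'2 u hu) (norm_nonneg _) hab)
      have h6 : (1 - r) * ((a + δ) * R') = δ * R' := by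
        have : (1 - r) * (a + δ) = δ := by rw [sub_mul, hr1]; ring
        rw [← mul_assoc, this]
      have h7 : δ * R' < ε / 2 := by
        rw [hδ, div_mul_eq_mul_div, div_lt_div_iff₀ (by positivity) (by positivity)]
        nlinarith
      have hr1' : 0 ≤ 1 - r := by
        rw [hr, sub_nonneg, div_le_one hapos]; linarith
      have h8 : (r • T) u - u = (T u - u) - (1 - r) • T u := by
        simp only [smul_apply, sub_smul, one_smul]; abel
      calc ‖(r • T) u - u‖ = ‖(T u - u) - (1 - r) • T u‖ := by rw [h8]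
        _ ≤ ‖T u - u‖ + ‖(1 - r) • T u‖ := norm_sub_le _ _
        _ = ‖T u - u‖ + (1 - r) * ‖T u‖ := by rw [norm_smul, Real.norm_of_nonneg hr1']
        _ ≤ ‖T u - u‖ + (1 - r) * ((a + δ) * R') := by gcongr
        _ < ε := by rw [h6]; linarith

/-- If the identity of `X` is approximated, uniformly on compact sets, by operators that
factor through spaces with the `a`-BAP, with factors of norm at most `1` and `c`, then `X`
has the `(a * c)`-BAP. -/
theorem HasBAP.of_factor {I : Type*} (Z : I → Type*) [∀ i, NormedAddCommGroup (Z i)]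
    [∀ i, NormedSpace ℝ (Z i)] (ρ : ∀ i, X →L[ℝ] Z i) (incl : ∀ i, Z i →L[ℝ] X)
    {a c : ℝ} (hZ : ∀ i, HasBAP a (Z i)) (hincl : ∀ i, ‖incl i‖ ≤ 1) (hρ : ∀ i, ‖ρ i‖ ≤ c)
    (happrox : ∀ C : Set X, IsCompact C → ∀ ε : ℝ, 0 < ε →
      ∃ i, ∀ u ∈ C, ‖incl i (ρ i u) - u‖ < ε) :
    HasBAP (a * c) X := by
  intro C hC ε hε
  obtain ⟨i, hi⟩ := happrox C hC (ε / 2) (by positivity)
  obtain ⟨T, h1, h2, h3⟩ := hZ i (ρ i '' C) (hC.image (ρ i).continuous) (ε / 2) (by positivity)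
  have ha0 : 0 ≤ a := (norm_nonneg T).trans h2
  have hc0 : 0 ≤ c := (norm_nonneg (ρ i)).trans (hρ i)
  refine ⟨(incl i).comp (T.comp (ρ i)), ?_, ?_, fun u hu => ?_⟩
  · have hle : LinearMap.range (((incl i).comp (T.comp (ρ i)) : X →L[ℝ] X) : X →ₗ[ℝ] X) ≤
        (LinearMap.range (T : Z i →ₗ[ℝ] Z i)).map (incl i : Z i →ₗ[ℝ] X) := by
      rintro _ ⟨y, rfl⟩
      exact ⟨T (ρ i y), ⟨ρ i y, rfl⟩, rfl⟩
    have := h1
    exact Submodule.finiteDimensional_of_le hle
  · calc ‖(incl i).comp (T.comp (ρ i))‖ ≤ ‖incl i‖ * ‖T.comp (ρ i)‖ :=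
          ContinuousLinearMap.opNorm_comp_le _ _
      _ ≤ ‖incl i‖ * (‖T‖ * ‖ρ i‖) := by
          gcongr; exact ContinuousLinearMap.opNorm_comp_le _ _
      _ ≤ 1 * (a * c) := by
          apply mul_le_mul (hincl i) _ (by positivity) zero_le_one
          exact mul_le_mul h2 (hρ i) (norm_nonneg _) ha0
      _ = a * c := one_mul _
  · have h4 := h3 (ρ i u) ⟨u, hu, rfl⟩
    have h5 := hi u hu
    have h6 : ((incl i).comp (T.comp (ρ i))) u - u
        = incl i (T (ρ i u) - ρ i u) + (incl i (ρ i u) - u) := by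
      rw [map_sub]
      show incl i (T (ρ i u)) - u = _
      abel
    rw [h6]
    calc ‖incl i (T (ρ i u) - ρ i u) + (incl i (ρ i u) - u)‖
        ≤ ‖incl i (T (ρ i u) - ρ i u)‖ + ‖incl i (ρ i u) - u‖ := norm_add_le _ _
      _ ≤ ‖incl i‖ * ‖T (ρ i u) - ρ i u‖ + ‖incl i (ρ i u) - u‖ := by
          gcongr; exact (incl i).le_opNorm _
      _ ≤ 1 * ‖T (ρ i u) - ρ i u‖ + ‖incl i (ρ i u) - u‖ := by
          gcongr; exact hincl i
      _ < ε := by linarith

end Vale.Agent.Lib.P090
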