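import Vale.Agent.Lib.P090.Defs

/-! Basic API for `Lip0`, `delta`, `LipFree`. -/

namespace Vale.Agent.Lib.P090

variable {M : Type*} [MetricSpace M] {o : M}
variable {M' : Type*} [MetricSpace M'] {o' : M'}

theorem Lip0.map_base (f : Lip0 M o) : f o = 0 := f.2.1

theorem Lip0.lip (f : Lip0 M o) (x y : M) : |f x - f y| ≤ ‖f‖ * dist x y :=
  lipConst_spec f.2.2 x y

theorem Lip0.abs_apply_le (f : Lip0 M o) (x : M) : |f x| ≤ ‖f‖ * dist x o := by
  have h := f.lip x o
  rwa [f.map_base, sub_zero] at h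

theorem Lip0.norm_le_of_lip (f : Lip0 M o) {K : ℝ} (hK0 : 0 ≤ K)
    (hK : ∀ x y, |f x - f y| ≤ K * dist x y) : ‖f‖ ≤ K :=
  lipConst_le hK0 hK

theorem Lip0.add_apply (f g : Lip0 M o) (x : M) : (f + g) x = f x + g x := rfl

theorem Lip0.smul_apply (c : ℝ) (f : Lip0 M o) (x : M) : (c • f) x = c * f x := rfl

theorem Lip0.sub_apply (f g : Lip0 M o) (x : M) : (f - g) x = f x - g x := rfl

theorem Lip0.neg_apply (f : Lip0 M o) (x : M) : (-f) x = -f x := rfl

theorem Lip0.zero_apply (x : M) : (0 : Lip0 M o) x = 0 := rfl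

theorem Lip0.ext {f g : Lip0 M o} (h : ∀ x, f x = g x) : f = g :=
  Subtype.ext (funext h)

/-- Build an element of `Lip0 M o` from a function. -/
def Lip0.ofFun (g : M → ℝ) (h0 : g o = 0) (K : ℝ)
    (hK : ∀ x y, |g x - g y| ≤ K * dist x y) : Lip0 M o :=
  ⟨g, h0, K, hK⟩

theorem Lip0.ofFun_apply (g : M → ℝ) (h0 : g o = 0) (K : ℝ)
    (hK : ∀ x y, |g x - g y| ≤ K * dist x y) (x : M) :
    (Lip0.ofFun g h0 K hK : Lip0 M o) x = g x := rfl

theorem delta_apply (x : M) (f : Lip0 M o) : delta o x f = f x := rfl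

theorem delta_base : delta o o = 0 := by
  ext f
  rw [delta_apply, f.map_base]
  rfl

/-- Build a bounded operator `Lip0 M' o' → Lip0 M o` from a linear map on functions. -/
noncomputable def Lip0.mkCLM (F : (M' → ℝ) →ₗ[ℝ] (M → ℝ)) (C : ℝ) (hC0 : 0 ≤ C)
    (h0 : ∀ g : Lip0 M' o', F g o = 0)
    (hC : ∀ (g : Lip0 M' o') (x y : M), |F g x - F g y| ≤ C * ‖g‖ * dist x y) :
    Lip0 M' o' →L[ℝ] Lip0 M o :=
  LinearMap.mkContinuous
    ({ toFun := fun g => Lip0.ofFun (F g) (h0 g) (C * ‖g‖) (hC g)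
       map_add' := fun g h => Subtype.ext (F.map_add g.1 h.1)
       map_smul' := fun c g => Subtype.ext (F.map_smul c g.1) } : Lip0 M' o' →ₗ[ℝ] Lip0 M o)
    C
    (fun g => Lip0.norm_le_of_lip _ (mul_nonneg hC0 (norm_nonneg g)) (hC g))

theorem Lip0.mkCLM_apply (F : (M' → ℝ) →ₗ[ℝ] (M → ℝ)) (C : ℝ) (hC0 : 0 ≤ C)
    (h0 : ∀ g : Lip0 M' o', F g o = 0)
    (hC : ∀ (g : Lip0 M' o') (x y : M), |F g x - F g y| ≤ C * ‖g‖ * dist x y)
    (g : Lip0 M' o') (x : M) : Lip0.mkCLM F C hC0 h0 hC g x = F g x := rfl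

theorem Lip0.norm_mkCLM_le (F : (M' → ℝ) →ₗ[ℝ] (M → ℝ)) (C : ℝ) (hC0 : 0 ≤ C)
    (h0 : ∀ g : Lip0 M' o', F g o = 0)
    (hC : ∀ (g : Lip0 M' o') (x y : M), |F g x - F g y| ≤ C * ‖g‖ * dist x y) :
    ‖Lip0.mkCLM F C hC0 h0 hC‖ ≤ C :=
  LinearMap.mkContinuous_norm_le _ hC0 _

theorem delta_mem (x : M) : delta o x ∈ lipFreeSubmodule M o :=
  Submodule.le_topologicalClosure _ (Submodule.subset_span ⟨x, rfl⟩)

/-- The evaluation at `x` as an element of the free space. -/
noncomputable def LipFree.d (o : M) (x : M) : LipFree M o := ⟨delta o x, delta_mem x⟩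

theorem LipFree.d_coe (x : M) : (LipFree.d o x).1 = delta o x := rfl

theorem LipFree.d_base : LipFree.d o o = 0 := Subtype.ext delta_base

theorem LipFree.coe_add (u v : LipFree M o) : (u + v).1 = u.1 + v.1 := rfl

theorem LipFree.coe_sub (u v : LipFree M o) : (u - v).1 = u.1 - v.1 := rfl

theorem LipFree.coe_smul (c : ℝ) (u : LipFree M o) : (c • u).1 = c • u.1 := rfl

theorem LipFree.coe_zero : (0 : LipFree M o).1 = 0 := rfl

theorem LipFree.norm_coe (u : LipFree M o) : ‖u.1‖ = ‖u‖ := rfl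

theorem LipFree.ext {u v : LipFree M o} (h : u.1 = v.1) : u = v := Subtype.ext h

/-- The inclusion of the free space in the dual of `Lip0`, as a linear map. -/
noncomputable def LipFree.incl (M : Type*) [MetricSpace M] (o : M) :
    LipFree M o →ₗ[ℝ] StrongDual ℝ (Lip0 M o) :=
  (lipFreeSubmodule M o).subtype

theorem LipFree.incl_apply (u : LipFree M o) : LipFree.incl M o u = u.1 := rfl

/-- Induction principle: a closed submodule containing all evaluations contains everything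
in the free space. -/
theorem LipFree.le_of_delta_mem (V : Submodule ℝ (StrongDual ℝ (Lip0 M o)))
    (hV : IsClosed (V : Set (StrongDual ℝ (Lip0 M o)))) (h : ∀ x, delta o x ∈ V) :
    lipFreeSubmodule M o ≤ V :=
  Submodule.topologicalClosure_minimal _ (Submodule.span_le.mpr (by
    rintro _ ⟨x, rfl⟩
    exact h x)) hV

/-- The span of the evaluations is dense in the free space (as a statement inside the
free space). -/
theorem LipFree.dense_span (u : LipFree M o) :
    u ∈ closure ((Submodule.span ℝ (Set.range (LipFree.d o)) :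
      Submodule ℝ (LipFree M o)) : Set (LipFree M o)) := by
  have hu : u.1 ∈ closure ((Submodule.span ℝ (Set.range (delta o)) :
        Submodule ℝ (StrongDual ℝ (Lip0 M o))) : Set (StrongDual ℝ (Lip0 M o))) := u.2
  rw [Metric.mem_closure_iff] at hu ⊢
  intro ε hε
  obtain ⟨b, hb, hub⟩ := hu ε hε
  have hb' : b ∈ lipFreeSubmodule M o := Submodule.le_topologicalClosure _ hb
  have key : Submodule.span ℝ (Set.range (delta o)) ≤
      (Submodule.span ℝ (Set.range (LipFree.d o))).map (LipFree.incl M o) := by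
    rw [Submodule.span_le]
    rintro _ ⟨x, rfl⟩
    exact ⟨LipFree.d o x, Submodule.subset_span ⟨x, rfl⟩, rfl⟩
  obtain ⟨c, hc, hcb⟩ := key hb
  refine ⟨c, hc, ?_⟩
  have h2 : dist u c = dist u.1 c.1 := rfl
  rw [h2, show c.1 = b from hcb]
  exact hub

/-- The adjoint of a bounded operator between `Lip0` spaces, restricted to the free spaces,
when it maps evaluations into the free space. -/
noncomputable def LipFree.ofDual (Q : Lip0 M' o' →L[ℝ] Lip0 M o)
    (hQ : ∀ x, (delta o x).comp Q ∈ lipFreeSubmodule M' o') : LipFree M o →L[ℝ] LipFree M' o' :=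
  LinearMap.mkContinuous
    ({ toFun := fun μ => ⟨μ.1.comp Q, by
        have hcont : Continuous (fun ν : StrongDual ℝ (Lip0 M o) => ν.comp Q) :=
          (ContinuousLinearMap.precomp ℝ Q).continuous
        let V : Submodule ℝ (StrongDual ℝ (Lip0 M o)) :=
          (lipFreeSubmodule M' o').comap (ContinuousLinearMap.precomp ℝ Q).toLinearMap
        have hV : IsClosed (V : Set (StrongDual ℝ (Lip0 M o))) :=
          (Submodule.isClosed_topologicalClosure _).preimage hcont
        exact LipFree.le_of_delta_mem V hV hQ μ.2⟩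
       map_add' := fun _ _ => rfl
       map_smul' := fun _ _ => rfl } : LipFree M o →ₗ[ℝ] LipFree M' o')
    ‖Q‖
    (fun μ => by
      show ‖μ.1.comp Q‖ ≤ ‖Q‖ * ‖μ.1‖
      rw [mul_comm]
      exact ContinuousLinearMap.opNorm_comp_le _ _)

theorem LipFree.ofDual_coe (Q : Lip0 M' o' →L[ℝ] Lip0 M o)
    (hQ : ∀ x, (delta o x).comp Q ∈ lipFreeSubmodule M' o') (μ : LipFree M o) :
    (LipFree.ofDual Q hQ μ).1 = μ.1.comp Q := rfl

theorem LipFree.norm_ofDual_le (Q : Lip0 M' o' →L[ℝ] Lip0 M o)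
    (hQ : ∀ x, (delta o x).comp Q ∈ lipFreeSubmodule M' o') : ‖LipFree.ofDual Q hQ‖ ≤ ‖Q‖ :=
  LinearMap.mkContinuous_norm_le _ (norm_nonneg _) _

end Vale.Agent.Lib.P090
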