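import Vale.Agent.Lib.P090.Retract

/-! Logarithmic cut-off operators: the free space of `M` is approximated by the free spaces
of its balls through operators of norm close to one. -/

namespace Vale.Agent.Lib.P090

/-- The logarithmic cut-off profile: `1` on `[0, R]`, `0` on `[R * S, ∞)`. -/
noncomputable def cutoff (R S t : ℝ) : ℝ :=
  max 0 (min 1 (1 - (Real.log (max t R) - Real.log R) / Real.log S))

theorem cutoff_nonneg (R S t : ℝ) : 0 ≤ cutoff R S t := le_max_left _ _

theorem cutoff_le_one (R S t : ℝ) : cutoff R S t ≤ 1 := max_le zero_le_one (min_le_left _ _)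

theorem cutoff_eq_one {R S t : ℝ} (ht : t ≤ R) : cutoff R S t = 1 := by
  simp [cutoff, max_eq_right ht]

theorem cutoff_eq_zero {R S t : ℝ} (hR : 0 < R) (hS : 1 < S) (ht : R * S ≤ t) :
    cutoff R S t = 0 := by
  have hlogS : 0 < Real.log S := Real.log_pos hS
  have hRt : R ≤ t := le_trans (by nlinarith) ht
  have h1 : Real.log (R * S) ≤ Real.log t := Real.log_le_log (by positivity) ht
  rw [Real.log_mul hR.ne' (by positivity)] at h1
  have h2 : 1 ≤ (Real.log t - Real.log R) / Real.log S := by
    rw [le_div_iff₀ hlogS]; linarith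
  have h3 : min 1 (1 - (Real.log (max t R) - Real.log R) / Real.log S) ≤ 0 := by
    rw [max_eq_left hRt]
    exact (min_le_right _ _).trans (by linarith)
  exact max_eq_left h3

theorem clamp_sub_le {u v : ℝ} (h : v ≤ u) :
    0 ≤ max 0 (min 1 u) - max 0 (min 1 v) ∧ max 0 (min 1 u) - max 0 (min 1 v) ≤ u - v := by
  constructor
  · have : max 0 (min 1 v) ≤ max 0 (min 1 u) := max_le_max le_rfl (min_le_min le_rfl h)
    linarith
  · rcases le_total 1 u with hu | hu <;> rcases le_total 1 v with hv | hv <;>
      rcases le_total 0 u with hu0 | hu0 <;> rcases le_total 0 v with hv0 | hv0 <;>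
      simp [*] <;> linarith

theorem cutoff_diff {R S s t : ℝ} (hR : 0 < R) (hS : 1 < S) (hs : 0 ≤ s) (hst : s ≤ t) :
    0 ≤ cutoff R S s - cutoff R S t ∧
      (cutoff R S s - cutoff R S t) * s ≤ (t - s) / Real.log S := by
  have hlogS : 0 < Real.log S := Real.log_pos hS
  set a := max s R with ha
  set b := max t R with hb
  have ha0 : 0 < a := lt_of_lt_of_le hR (le_max_right _ _)
  have hab : a ≤ b := max_le_max hst le_rfl
  have hb0 : 0 < b := lt_of_lt_of_le ha0 hab
  have hsa : s ≤ a := le_max_left _ _
  have hba : b - a ≤ t - s := by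
    rcases le_total s R with h1 | h1 <;> rcases le_total t R with h2 | h2
    · rw [ha, hb, max_eq_right h1, max_eq_right h2]; linarith
    · rw [ha, hb, max_eq_right h1, max_eq_left h2]; linarith
    · rw [ha, hb, max_eq_left h1, max_eq_right h2]; linarith
    · rw [ha, hb, max_eq_left h1, max_eq_left h2]
  have hlog : Real.log b - Real.log a ≤ (b - a) / a := by
    have h1 := Real.log_le_sub_one_of_pos (div_pos hb0 ha0)
    rw [Real.log_div hb0.ne' ha0.ne'] at h1
    have h2 : b / a - 1 = (b - a) / a := by field_simp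
    linarith
  have hlog0 : 0 ≤ Real.log b - Real.log a := by
    have := Real.log_le_log ha0 hab; linarith
  have huv : 1 - (Real.log b - Real.log R) / Real.log S ≤
      1 - (Real.log a - Real.log R) / Real.log S := by
    have : (Real.log a - Real.log R) / Real.log S ≤ (Real.log b - Real.log R) / Real.log S :=
      div_le_div_of_nonneg_right (by linarith) hlogS.le
    linarith
  obtain ⟨h0, h1⟩ := clamp_sub_le huv
  have hdiff : (1 - (Real.log a - Real.log R) / Real.log S) -
      (1 - (Real.log b - Real.log R) / Real.log S) = (Real.log b - Real.log a) / Real.log S := by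
    field_simp; ring
  rw [hdiff] at h1
  refine ⟨h0, ?_⟩
  have h2 : (cutoff R S s - cutoff R S t) ≤ ((b - a) / a) / Real.log S :=
    h1.trans (div_le_div_of_nonneg_right hlog hlogS.le)
  have hbapos : 0 ≤ b - a := by linarith
  calc (cutoff R S s - cutoff R S t) * s ≤ (((b - a) / a) / Real.log S) * s :=
        mul_le_mul_of_nonneg_right h2 hs
    _ ≤ (((b - a) / a) / Real.log S) * a :=
        mul_le_mul_of_nonneg_left hsa (by positivity)
    _ = (b - a) / Real.log S := by field_simp
    _ ≤ (t - s) / Real.log S := div_le_div_of_nonneg_right hba hlogS.le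

variable {M : Type*} [MetricSpace M]

/-- The base point of a closed ball centred at `o`. -/
def ballBase (o : M) {r : ℝ} (hr : 0 ≤ r) : Metric.closedBall o r :=
  ⟨o, Metric.mem_closedBall_self hr⟩

/-- Extension by zero of a function on the closed ball of radius `r` around `o`. -/
noncomputable def zeroExt (o : M) (r : ℝ) (g : Metric.closedBall o r → ℝ) : M → ℝ :=
  fun x => if h : dist x o ≤ r then g ⟨x, Metric.mem_closedBall.mpr h⟩ else 0

/-- The linear map `g ↦ cutoff * (extension of g by zero)` on functions. -/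
noncomputable def cutFun (o : M) (R S : ℝ) :
    (Metric.closedBall o (R * S) → ℝ) →ₗ[ℝ] (M → ℝ) where
  toFun g := fun x => cutoff R S (dist x o) * zeroExt o (R * S) g x
  map_add' g h := by
    funext x
    simp only [zeroExt, Pi.add_apply]
    split_ifs <;> ring
  map_smul' c g := by
    funext x
    simp only [zeroExt, Pi.smul_apply, smul_eq_mul, RingHom.id_apply]
    split_ifs <;> ring

theorem cutFun_apply (o : M) (R S : ℝ) (g : Metric.closedBall o (R * S) → ℝ) (x : M) :
    cutFun o R S g x = cutoff R S (dist x o) * zeroExt o (R * S) g x := rfl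

section

variable (o : M) {R S : ℝ} (hR : 0 < R) (hS : 1 < S)

include hR hS in
theorem cut_est_aux (hr : 0 ≤ R * S) (g : Lip0 (Metric.closedBall o (R * S)) (ballBase o hr))
    (x y : M) (hxy : dist x o ≤ dist y o) :
    |cutFun o R S g x - cutFun o R S g y| ≤ (1 + 1 / Real.log S) * ‖g‖ * dist x y := by
  have hlogS : 0 < Real.log S := Real.log_pos hS
  set s := dist x o with hs
  set t := dist y o with ht
  have hs0 : 0 ≤ s := dist_nonneg
  have hg0 : 0 ≤ ‖g‖ := norm_nonneg g
  have hts : t - s ≤ dist x y := by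
    have := dist_triangle y x o
    rw [dist_comm y x] at this
    linarith
  -- Fact A
  have hA : |zeroExt o (R * S) g x| ≤ ‖g‖ * s := by
    unfold zeroExt
    split_ifs with h
    · have := g.abs_apply_le ⟨x, Metric.mem_closedBall.mpr h⟩
      exact this
    · simpa using mul_nonneg hg0 hs0
  -- Fact B
  have hB : cutoff R S t * |zeroExt o (R * S) g x - zeroExt o (R * S) g y| ≤ ‖g‖ * dist x y := by
    by_cases h : t ≤ R * S
    · have hx : s ≤ R * S := hxy.trans h
      have h1 : zeroExt o (R * S) g x = g ⟨x, Metric.mem_closedBall.mpr hx⟩ := by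
        unfold zeroExt; rw [dif_pos hx]
      have h2 : zeroExt o (R * S) g y = g ⟨y, Metric.mem_closedBall.mpr h⟩ := by
        unfold zeroExt; rw [dif_pos h]
      rw [h1, h2]
      have h3 := g.lip ⟨x, Metric.mem_closedBall.mpr hx⟩ ⟨y, Metric.mem_closedBall.mpr h⟩
      have h4 : dist (⟨x, Metric.mem_closedBall.mpr hx⟩ : Metric.closedBall o (R * S))
          ⟨y, Metric.mem_closedBall.mpr h⟩ = dist x y := rfl
      rw [h4] at h3
      calc cutoff R S t * |g ⟨x, _⟩ - g ⟨y, _⟩| ≤ 1 * |g ⟨x, _⟩ - g ⟨y, _⟩| :=
            mul_le_mul_of_nonneg_right (cutoff_le_one _ _ _) (abs_nonneg _)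
        _ ≤ ‖g‖ * dist x y := by rw [one_mul]; exact h3
    · rw [cutoff_eq_zero hR hS (le_of_lt (not_le.mp h)), zero_mul]
      exact mul_nonneg hg0 dist_nonneg
  obtain ⟨hd0, hd1⟩ := cutoff_diff hR hS hs0 hxy
  have hsplit : cutFun o R S g x - cutFun o R S g y
      = (cutoff R S s - cutoff R S t) * zeroExt o (R * S) g x
        + cutoff R S t * (zeroExt o (R * S) g x - zeroExt o (R * S) g y) := by
    rw [cutFun_apply, cutFun_apply]; ring
  rw [hsplit]
  calc |(cutoff R S s - cutoff R S t) * zeroExt o (R * S) g x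
        + cutoff R S t * (zeroExt o (R * S) g x - zeroExt o (R * S) g y)|
      ≤ |(cutoff R S s - cutoff R S t) * zeroExt o (R * S) g x|
        + |cutoff R S t * (zeroExt o (R * S) g x - zeroExt o (R * S) g y)| := abs_add_le _ _
    _ = (cutoff R S s - cutoff R S t) * |zeroExt o (R * S) g x|
        + cutoff R S t * |zeroExt o (R * S) g x - zeroExt o (R * S) g y| := by
        rw [abs_mul, abs_mul, abs_of_nonneg hd0, abs_of_nonneg (cutoff_nonneg _ _ _)]
    _ ≤ (cutoff R S s - cutoff R S t) * (‖g‖ * s) + ‖g‖ * dist x y := by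
        gcongr
    _ = ‖g‖ * ((cutoff R S s - cutoff R S t) * s) + ‖g‖ * dist x y := by ring
    _ ≤ ‖g‖ * ((t - s) / Real.log S) + ‖g‖ * dist x y := by gcongr
    _ ≤ ‖g‖ * (dist x y / Real.log S) + ‖g‖ * dist x y := by gcongr
    _ = (1 + 1 / Real.log S) * ‖g‖ * dist x y := by field_simp; ring

include hR hS in
theorem cut_est (hr : 0 ≤ R * S) (g : Lip0 (Metric.closedBall o (R * S)) (ballBase o hr))
    (x y : M) :
    |cutFun o R S g x - cutFun o R S g y| ≤ (1 + 1 / Real.log S) * ‖g‖ * dist x y := by
  rcases le_total (dist x o) (dist y o) with h | h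
  · exact cut_est_aux o hR hS hr g x y h
  · rw [abs_sub_comm, dist_comm]
    exact cut_est_aux o hR hS hr g y x h

theorem cutFun_base (hr : 0 ≤ R * S) (g : Lip0 (Metric.closedBall o (R * S)) (ballBase o hr)) :
    cutFun o R S g o = 0 := by
  rw [cutFun_apply]
  have h : dist o o ≤ R * S := by rw [dist_self]; exact hr
  have h1 : zeroExt o (R * S) g o = g ⟨o, Metric.mem_closedBall.mpr h⟩ := by
    unfold zeroExt; rw [dif_pos h]
  rw [h1]
  have h2 : g (ballBase o hr) = 0 := g.map_base
  have h3 : (⟨o, Metric.mem_closedBall.mpr h⟩ : Metric.closedBall o (R * S)) = ballBase o hr := rfl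
  rw [h3, h2, mul_zero]

/-- The cut-off operator from `Lip0` of a ball to `Lip0 M o`. -/
noncomputable def cutOp (hr : 0 ≤ R * S) :
    Lip0 (Metric.closedBall o (R * S)) (ballBase o hr) →L[ℝ] Lip0 M o :=
  Lip0.mkCLM (cutFun o R S) (1 + 1 / Real.log S)
    (by have := Real.log_pos hS; positivity)
    (cutFun_base o hr) (cut_est o hR hS hr)

theorem norm_cutOp_le (hr : 0 ≤ R * S) : ‖cutOp o hR hS hr‖ ≤ 1 + 1 / Real.log S :=
  Lip0.norm_mkCLM_le _ _ _ _ _

theorem delta_comp_cutOp (hr : 0 ≤ R * S) (x : M) :
    (delta o x).comp (cutOp o hR hS hr) =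
      if h : dist x o ≤ R * S then
        cutoff R S (dist x o) • delta (ballBase o hr) ⟨x, Metric.mem_closedBall.mpr h⟩
      else 0 := by
  ext g
  have h0 : ((delta o x).comp (cutOp o hR hS hr)) g = cutFun o R S g x := rfl
  rw [h0, cutFun_apply]
  split_ifs with h
  · have h1 : zeroExt o (R * S) g x = g ⟨x, Metric.mem_closedBall.mpr h⟩ := by
      unfold zeroExt; rw [dif_pos h]
    rw [h1]
    rfl
  · have h1 : zeroExt o (R * S) g x = 0 := by
      unfold zeroExt; rw [dif_neg h]
    rw [h1, mul_zero]
    rfl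

/-- The cut-off operator from the free space of `M` to the free space of a ball. -/
noncomputable def cutFree (hr : 0 ≤ R * S) :
    LipFree M o →L[ℝ] LipFree (Metric.closedBall o (R * S)) (ballBase o hr) :=
  LipFree.ofDual (cutOp o hR hS hr) (fun x => by
    rw [delta_comp_cutOp]
    split_ifs with h
    · exact Submodule.smul_mem _ _ (delta_mem _)
    · exact Submodule.zero_mem _)

theorem norm_cutFree_le (hr : 0 ≤ R * S) : ‖cutFree o hR hS hr‖ ≤ 1 + 1 / Real.log S :=
  (LipFree.norm_ofDual_le _ _).trans (norm_cutOp_le o hR hS hr)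

theorem cutFree_d (hr : 0 ≤ R * S) (x : M) (h : dist x o ≤ R * S) :
    cutFree o hR hS hr (LipFree.d o x) =
      cutoff R S (dist x o) • LipFree.d (ballBase o hr) ⟨x, Metric.mem_closedBall.mpr h⟩ := by
  apply LipFree.ext
  have h1 : (cutFree o hR hS hr (LipFree.d o x)).1 = (delta o x).comp (cutOp o hR hS hr) := rfl
  rw [h1, delta_comp_cutOp, dif_pos h]
  rfl

end

/-- The inclusion of the free space of a ball into the free space of `M`. -/
noncomputable def ballIncl (o : M) {r : ℝ} (hr : 0 ≤ r) :
    LipFree (Metric.closedBall o r) (ballBase o hr) →L[ℝ] LipFree M o :=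
  LipFree.map (ballBase o hr) o (Subtype.val) 1 zero_le_one (fun x y => by
    rw [one_mul]; exact le_of_eq rfl)

theorem norm_ballIncl_le (o : M) {r : ℝ} (hr : 0 ≤ r) : ‖ballIncl o hr‖ ≤ 1 :=
  LipFree.norm_map_le _ _ _ _

theorem ballIncl_d (o : M) {r : ℝ} (hr : 0 ≤ r) (x : Metric.closedBall o r) :
    ballIncl o hr (LipFree.d (ballBase o hr) x) = LipFree.d o x.1 := by
  unfold ballIncl
  rw [LipFree.map_d]
  have : (ballBase o hr : Metric.closedBall o r).1 = o := rfl
  rw [this, LipFree.d_base, sub_zero]

/-- Ball reduction: if the free spaces of all closed balls centred at the base point have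
the `lam`-BAP, then so does the free space of `M`. -/
theorem HasBAP.of_balls (o : M) (lam : ℝ)
    (h : ∀ (r : ℝ) (hr : 0 ≤ r),
      HasBAP lam (LipFree (Metric.closedBall o r) (ballBase o hr))) :
    HasBAP lam (LipFree M o) := by
  classical
  -- `lam` is nonnegative
  have hlam : 0 ≤ lam := by
    obtain ⟨T, -, hT, -⟩ := h 0 le_rfl ∅ isCompact_empty 1 one_pos
    exact (norm_nonneg T).trans hT
  -- for every `S > 1` we get the BAP with constant `lam * (1 + 1 / log S)`
  have key : ∀ S : ℝ, 1 < S → HasBAP (lam * (1 + 1 / Real.log S)) (LipFree M o) := by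
    intro S hS
    have hS0 : 0 < S := lt_trans zero_lt_one hS
    have hrpos : ∀ R : {R : ℝ // 0 < R}, 0 ≤ R.1 * S := fun R => (mul_pos R.2 hS0).le
    refine HasBAP.of_factor
      (fun R : {R : ℝ // 0 < R} => LipFree (Metric.closedBall o (R.1 * S)) (ballBase o (hrpos R)))
      (fun R => cutFree o R.2 hS (hrpos R)) (fun R => ballIncl o (hrpos R))
      (fun R => h _ _) (fun R => norm_ballIncl_le o _) (fun R => norm_cutFree_le o R.2 hS _) ?_
    intro C hC ε hε
    have hlogS : 0 < Real.log S := Real.log_pos hS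
    obtain ⟨T, ⟨R, rfl⟩, hT⟩ := approx_of_fix (Set.range (LipFree.d o)) LipFree.dense_span
      (fun T => ∃ R : {R : ℝ // 0 < R},
        T = (ballIncl o (hrpos R)).comp (cutFree o R.2 hS (hrpos R)))
      (1 * (1 + 1 / Real.log S))
      (by
        rintro T ⟨R, rfl⟩
        refine (ContinuousLinearMap.opNorm_comp_le _ _).trans ?_
        exact mul_le_mul (norm_ballIncl_le o _) (norm_cutFree_le o R.2 hS _)
          (norm_nonneg _) zero_le_one)
      (by
        intro F hF
        have hch : ∀ u : LipFree M o, ∃ x : M, u ∈ F → LipFree.d o x = u := by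
          intro u
          by_cases hu : u ∈ F
          · obtain ⟨x, hx⟩ := hF hu
            exact ⟨x, fun _ => hx⟩
          · exact ⟨o, fun h => absurd h hu⟩
        choose p hp using hch
        -- a radius containing all the points
        set R0 : ℝ := (F.sum fun u => dist (p u) o) + 1 with hR0
        have hR0pos : 0 < R0 := by
          have : 0 ≤ F.sum fun u => dist (p u) o := Finset.sum_nonneg (fun _ _ => dist_nonneg)
          linarith
        refine ⟨_, ⟨⟨R0, hR0pos⟩, rfl⟩, fun u hu => ?_⟩
        have hle : dist (p u) o ≤ R0 := by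
          have := Finset.single_le_sum (f := fun u => dist (p u) o)
            (fun _ _ => dist_nonneg) hu
          linarith
        have hle2 : dist (p u) o ≤ R0 * S := by nlinarith
        rw [← hp u hu]
        show ballIncl o _ (cutFree o hR0pos hS _ (LipFree.d o (p u))) = _
        rw [cutFree_d o hR0pos hS _ (p u) hle2, map_smul, ballIncl_d, cutoff_eq_one hle,
          one_smul])
      C hC ε hε
    exact ⟨R, hT⟩
  refine HasBAP.of_forall_gt (fun b hb => ?_)
  rcases eq_or_lt_of_le hlam with h0 | h0
  · have := key 2 (by norm_num)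
    rw [← h0, zero_mul] at this
    exact this.mono (by linarith)
  · -- choose `S` with `lam * (1 + 1 / log S) ≤ b`
    set η : ℝ := (b - lam) / lam with hη
    have hηpos : 0 < η := div_pos (by linarith) h0
    have hS : 1 < Real.exp (1 / η) := by
      rw [Real.one_lt_exp_iff]; positivity
    have := key (Real.exp (1 / η)) hS
    rw [Real.log_exp, one_div_one_div] at this
    refine this.mono ?_
    rw [hη]
    have : lam * (1 + (b - lam) / lam) = b := by field_simp; ring
    linarith

end Vale.Agent.Lib.P090
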