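import Mathlib

/-! Definitions for P090: the space `Lip0` of Lipschitz functions vanishing at a base point,
the Lipschitz-free space `LipFree` and the bounded approximation property `HasBAP`. -/

namespace Vale.Agent.Lib.P090

/-- The linear space of real Lipschitz functions on `M` that vanish at the base point `o`. -/
def lip0Submodule (M : Type*) [MetricSpace M] (o : M) : Submodule ℝ (M → ℝ) where
  carrier := {f | f o = 0 ∧ ∃ K : ℝ, ∀ x y, |f x - f y| ≤ K * dist x y}
  add_mem' := by
    rintro f g ⟨hf, K, hK⟩ ⟨hg, K', hK'⟩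
    refine ⟨by simp [hf, hg], K + K', fun x y => ?_⟩
    have h1 := hK x y
    have h2 := hK' x y
    have h3 : (f + g) x - (f + g) y = (f x - f y) + (g x - g y) := by
      simp only [Pi.add_apply]; ring
    rw [h3]
    calc |(f x - f y) + (g x - g y)| ≤ |f x - f y| + |g x - g y| := abs_add_le _ _
      _ ≤ (K + K') * dist x y := by linarith
  zero_mem' := ⟨rfl, 0, fun x y => by simp⟩
  smul_mem' := by
    rintro c f ⟨hf, K, hK⟩
    refine ⟨by simp [hf], |c| * K, fun x y => ?_⟩
    have h1 := hK x y
    have h3 : (c • f) x - (c • f) y = c * (f x - f y) := by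
      simp only [Pi.smul_apply, smul_eq_mul]; ring
    rw [h3, abs_mul]
    calc |c| * |f x - f y| ≤ |c| * (K * dist x y) :=
          mul_le_mul_of_nonneg_left h1 (abs_nonneg c)
      _ = |c| * K * dist x y := by ring

/-- `Lip0 M o`: the type of real Lipschitz functions on `M` vanishing at `o`. -/
def Lip0 (M : Type*) [MetricSpace M] (o : M) : Type _ := ↥(lip0Submodule M o)

variable {M : Type*} [MetricSpace M] {o : M}

/-- The additive group structure of `Lip0 M o` (pointwise operations); it is made available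
through the `NormedAddCommGroup` instance below. -/
@[reducible] def Lip0.addCommGroup : AddCommGroup (Lip0 M o) :=
  Submodule.addCommGroup (lip0Submodule M o)

/-- The real vector space structure of `Lip0 M o` (pointwise operations); it is made
available through the `NormedSpace` instance below. -/
@[reducible] def Lip0.module : @Module ℝ (Lip0 M o) _ Lip0.addCommGroup.toAddCommMonoid :=
  Submodule.module (lip0Submodule M o)

instance : CoeFun (Lip0 M o) (fun _ => M → ℝ) := ⟨fun f => f.1⟩

section

attribute [local instance] Lip0.addCommGroup Lip0.module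

/-- The Lipschitz constant of `f : M → ℝ`: the least `K ≥ 0` with
`|f x - f y| ≤ K * dist x y` for all `x y`. -/
noncomputable def lipConst (f : M → ℝ) : ℝ :=
  sInf {K : ℝ | 0 ≤ K ∧ ∀ x y, |f x - f y| ≤ K * dist x y}

theorem lipConst_nonneg (f : M → ℝ) : 0 ≤ lipConst f :=
  Real.sInf_nonneg (fun _ hK => hK.1)

theorem lipConst_le {f : M → ℝ} {K : ℝ} (hK0 : 0 ≤ K)
    (hK : ∀ x y, |f x - f y| ≤ K * dist x y) : lipConst f ≤ K :=
  csInf_le ⟨0, fun _ h => h.1⟩ ⟨hK0, hK⟩

theorem lipConst_spec {f : M → ℝ} (hf : ∃ K : ℝ, ∀ x y, |f x - f y| ≤ K * dist x y)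
    (x y : M) : |f x - f y| ≤ lipConst f * dist x y := by
  obtain ⟨K, hK⟩ := hf
  have hne : {K : ℝ | 0 ≤ K ∧ ∀ x y, |f x - f y| ≤ K * dist x y}.Nonempty :=
    ⟨max K 0, le_max_right _ _, fun x y => (hK x y).trans
      (mul_le_mul_of_nonneg_right (le_max_left _ _) dist_nonneg)⟩
  rcases eq_or_lt_of_le (dist_nonneg (x := x) (y := y)) with h | h
  · obtain ⟨K', -, hK'⟩ := hne
    have := hK' x y
    rw [← h] at this ⊢
    simpa using this
  · rw [← div_le_iff₀ h]
    refine le_csInf hne (fun K' hK' => ?_)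
    rw [div_le_iff₀ h]
    exact hK'.2 x y

theorem lipConst_zero (M : Type*) [MetricSpace M] (o : M) :
    lipConst (((0 : Lip0 M o) : M → ℝ)) = 0 :=
  le_antisymm (lipConst_le le_rfl (fun x y => by
    show |(0 : M → ℝ) x - (0 : M → ℝ) y| ≤ 0 * dist x y
    simp)) (lipConst_nonneg _)

theorem lipConst_add_le (f g : Lip0 M o) :
    lipConst ((f + g : Lip0 M o) : M → ℝ) ≤ lipConst (f : M → ℝ) + lipConst (g : M → ℝ) := by
  refine lipConst_le (add_nonneg (lipConst_nonneg _) (lipConst_nonneg _)) (fun x y => ?_)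
  have h1 := lipConst_spec f.2.2 x y
  have h2 := lipConst_spec g.2.2 x y
  have h3 : (f + g : Lip0 M o).1 x - (f + g : Lip0 M o).1 y
      = (f.1 x - f.1 y) + (g.1 x - g.1 y) := by
    show (f.1 + g.1) x - (f.1 + g.1) y = _
    simp only [Pi.add_apply]; ring
  rw [h3]
  calc |(f.1 x - f.1 y) + (g.1 x - g.1 y)| ≤ |f.1 x - f.1 y| + |g.1 x - g.1 y| :=
        abs_add_le _ _
    _ ≤ (lipConst (f : M → ℝ) + lipConst (g : M → ℝ)) * dist x y := by linarith

theorem lipConst_neg (f : Lip0 M o) :
    lipConst ((-f : Lip0 M o) : M → ℝ) = lipConst (f : M → ℝ) := by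
  have key : ∀ g : Lip0 M o, lipConst ((-g : Lip0 M o) : M → ℝ) ≤ lipConst (g : M → ℝ) := by
    intro g
    refine lipConst_le (lipConst_nonneg _) (fun x y => ?_)
    have h1 := lipConst_spec g.2.2 x y
    have h3 : (-g : Lip0 M o).1 x - (-g : Lip0 M o).1 y = -(g.1 x - g.1 y) := by
      show (-g.1) x - (-g.1) y = _
      simp only [Pi.neg_apply]; ring
    rw [h3, abs_neg]
    exact h1
  refine le_antisymm (key f) ?_
  have := key (-f)
  rwa [neg_neg] at this

theorem eq_zero_of_lipConst_eq_zero (f : Lip0 M o) (hf : lipConst (f : M → ℝ) = 0) : f = 0 := by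
  apply Subtype.ext
  funext x
  have h1 := lipConst_spec f.2.2 x o
  rw [hf, zero_mul, f.2.1, sub_zero] at h1
  exact abs_nonpos_iff.mp h1

/-- The norm of `Lip0 M o`: the Lipschitz constant. -/
noncomputable def lip0Norm (M : Type*) [MetricSpace M] (o : M) : AddGroupNorm (Lip0 M o) where
  toFun f := lipConst (f : M → ℝ)
  map_zero' := lipConst_zero M o
  add_le' := lipConst_add_le
  neg' := lipConst_neg
  eq_zero_of_map_eq_zero' := eq_zero_of_lipConst_eq_zero

theorem lipConst_smul_le (c : ℝ) (f : Lip0 M o) :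
    lipConst ((c • f : Lip0 M o) : M → ℝ) ≤ ‖c‖ * lipConst (f : M → ℝ) := by
  refine lipConst_le (mul_nonneg (norm_nonneg c) (lipConst_nonneg _)) (fun x y => ?_)
  have h1 := lipConst_spec f.2.2 x y
  have h3 : (c • f : Lip0 M o).1 x - (c • f : Lip0 M o).1 y = c * (f.1 x - f.1 y) := by
    show (c • f.1) x - (c • f.1) y = _
    simp only [Pi.smul_apply, smul_eq_mul]; ring
  rw [h3, abs_mul, Real.norm_eq_abs]
  calc |c| * |f.1 x - f.1 y| ≤ |c| * (lipConst (f : M → ℝ) * dist x y) :=
        mul_le_mul_of_nonneg_left h1 (abs_nonneg c)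
    _ = |c| * lipConst (f : M → ℝ) * dist x y := by ring

end

noncomputable instance : NormedAddCommGroup (Lip0 M o) :=
  @AddGroupNorm.toNormedAddCommGroup (Lip0 M o) Lip0.addCommGroup (lip0Norm M o)

noncomputable instance : NormedSpace ℝ (Lip0 M o) :=
  @NormedSpace.mk ℝ (Lip0 M o) _ _ Lip0.module lipConst_smul_le

theorem Lip0.norm_def (f : Lip0 M o) : ‖f‖ = lipConst (f : M → ℝ) := rfl

theorem Lip0.norm_apply_le (x : M) (f : Lip0 M o) : ‖f.1 x‖ ≤ dist x o * ‖f‖ := by
  have h1 := lipConst_spec f.2.2 x o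
  rw [f.2.1, sub_zero] at h1
  rw [Real.norm_eq_abs, Lip0.norm_def, mul_comm]
  exact h1

/-- Evaluation at `x` as a bounded linear functional on `Lip0 M o`. -/
noncomputable def delta (o : M) (x : M) : StrongDual ℝ (Lip0 M o) :=
  LinearMap.mkContinuous
    ({ toFun := fun f => f.1 x
       map_add' := fun _ _ => rfl
       map_smul' := fun _ _ => rfl } : LinearMap (RingHom.id ℝ) (Lip0 M o) ℝ)
    (dist x o) (Lip0.norm_apply_le x)

/-- The Lipschitz-free space of the pointed metric space `(M, o)`: the closed linear span of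
the evaluation functionals in the dual of `Lip0 M o` (a subspace, with the dual norm). -/
noncomputable def lipFreeSubmodule (M : Type*) [MetricSpace M] (o : M) :
    Submodule ℝ (StrongDual ℝ (Lip0 M o)) :=
  (Submodule.span ℝ (Set.range (delta o))).topologicalClosure

/-- `LipFree M o`: the Lipschitz-free space as a normed space (the subspace above with the
norm of the dual). -/
def LipFree (M : Type*) [MetricSpace M] (o : M) : Type _ := ↥(lipFreeSubmodule M o)

noncomputable instance : NormedAddCommGroup (LipFree M o) :=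
  Submodule.normedAddCommGroup (lipFreeSubmodule M o)

noncomputable instance : NormedSpace ℝ (LipFree M o) :=
  Submodule.normedSpace (lipFreeSubmodule M o)

/-- The `lam`-bounded approximation property of a real normed space `X`: every compact set is
approximated uniformly, to any precision, by a finite-rank operator of norm at most `lam`. -/
def HasBAP (lam : ℝ) (X : Type*) [NormedAddCommGroup X] [NormedSpace ℝ X] : Prop :=
  ∀ C : Set X, IsCompact C → ∀ ε : ℝ, 0 < ε →
    ∃ T : ContinuousLinearMap (RingHom.id ℝ) X X,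
      FiniteDimensional ℝ (LinearMap.range T.toLinearMap) ∧ ‖T‖ ≤ lam ∧
        ∀ u ∈ C, ‖T u - u‖ < ε

/-- `M` is uniformly discrete: distinct points are at distance at least some `θ > 0`. -/
def UniformlyDiscrete (M : Type*) [MetricSpace M] : Prop :=
  ∃ θ : ℝ, 0 < θ ∧ ∀ x y : M, x ≠ y → θ ≤ dist x y

end Vale.Agent.Lib.P090
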