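import Vale.Agent.Lib.P090.Retract

/-! Weighted nearest-point operators: a square-root bound for the bounded approximation
constant of the free space of a separated space with the finite cone-point property. -/

namespace Vale.Agent.Lib.P090

variable {M : Type*} [MetricSpace M] {o : M}

/-- Criterion: if every finite subset of `M` has its evaluations fixed by a finite-rank
operator of norm at most `Λ` on the free space, then the free space has the `Λ`-BAP. -/
theorem HasBAP.of_finite_ops (o : M) (Λ : ℝ)
    (h : ∀ A : Finset M, ∃ T : LipFree M o →L[ℝ] LipFree M o,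
      FiniteDimensional ℝ (LinearMap.range (T : LipFree M o →ₗ[ℝ] LipFree M o)) ∧ ‖T‖ ≤ Λ ∧
        ∀ a ∈ A, T (LipFree.d o a) = LipFree.d o a) :
    HasBAP Λ (LipFree M o) := by
  classical
  refine HasBAP.of_fix (Set.range (LipFree.d o)) LipFree.dense_span Λ (fun F hF => ?_)
  have hch : ∀ u : LipFree M o, ∃ x : M, u ∈ F → LipFree.d o x = u := by
    intro u
    by_cases hu : u ∈ F
    · obtain ⟨x, hx⟩ := hF hu
      exact ⟨x, fun _ => hx⟩
    · exact ⟨o, fun h => absurd h hu⟩
  choose p hp using hch
  obtain ⟨T, hfin, hnorm, hfix⟩ := h (F.image p)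
  refine ⟨T, hfin, hnorm, fun u hu => ?_⟩
  rw [← hp u hu]
  exact hfix _ (Finset.mem_image_of_mem p hu)

/-- The weight of a point: `1` on the finite set `A`, decreasing linearly with slope `L` in
the distance to `A`, and `0` beyond distance `1 / L`. -/
noncomputable def nearWeight (L : ℝ) (A : Finset M) (x : M) : ℝ :=
  max 0 (1 - L * Metric.infDist x (A : Set M))

theorem nearWeight_nonneg (L : ℝ) (A : Finset M) (x : M) : 0 ≤ nearWeight L A x :=
  le_max_left _ _

theorem nearWeight_le_one {L : ℝ} (hL : 0 ≤ L) (A : Finset M) (x : M) :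
    nearWeight L A x ≤ 1 := by
  have h := Metric.infDist_nonneg (x := x) (s := (A : Set M))
  have h2 : 0 ≤ L * Metric.infDist x (A : Set M) := mul_nonneg hL h
  exact max_le zero_le_one (by linarith)

theorem nearWeight_of_mem (L : ℝ) {A : Finset M} {x : M} (hx : x ∈ A) :
    nearWeight L A x = 1 := by
  have h : Metric.infDist x (A : Set M) = 0 := Metric.infDist_zero_of_mem (by exact_mod_cast hx)
  simp [nearWeight, h]

/-- Monotonicity and the Lipschitz bound of the weight in the distance to `A`. -/
theorem nearWeight_diff {L : ℝ} (hL : 0 ≤ L) (A : Finset M) {x y : M}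
    (hxy : Metric.infDist x (A : Set M) ≤ Metric.infDist y (A : Set M)) :
    0 ≤ nearWeight L A x - nearWeight L A y ∧
      nearWeight L A x - nearWeight L A y ≤ L * dist x y := by
  have h1 : Metric.infDist y (A : Set M) ≤ Metric.infDist x (A : Set M) + dist y x :=
    Metric.infDist_le_infDist_add_dist
  rw [dist_comm] at h1
  set a := Metric.infDist x (A : Set M) with ha
  set b := Metric.infDist y (A : Set M) with hb
  have h2 : L * a ≤ L * b := mul_le_mul_of_nonneg_left hxy hL
  have h3 : L * b ≤ L * a + L * dist x y := by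
    have := mul_le_mul_of_nonneg_left h1 hL
    linarith
  have hd : 0 ≤ L * dist x y := mul_nonneg hL dist_nonneg
  unfold nearWeight
  rw [← ha, ← hb]
  constructor
  · have : max 0 (1 - L * b) ≤ max 0 (1 - L * a) := max_le_max le_rfl (by linarith)
    linarith
  · rcases le_total 0 (1 - L * a) with h4 | h4 <;> rcases le_total 0 (1 - L * b) with h5 | h5
    · rw [max_eq_right h4, max_eq_right h5]; linarith
    · rw [max_eq_right h4, max_eq_left h5]; linarith
    · rw [max_eq_left h4, max_eq_right h5]; linarith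
    · rw [max_eq_left h4, max_eq_left h5]; linarith

/-- The product of the weight and twice the distance to `A` is at most `1 / (2 L)`. -/
theorem nearWeight_mul_le {L : ℝ} (hL : 0 < L) (A : Finset M) (x : M) :
    nearWeight L A x * (2 * Metric.infDist x (A : Set M)) ≤ 1 / (2 * L) := by
  have h := Metric.infDist_nonneg (x := x) (s := (A : Set M))
  set a := Metric.infDist x (A : Set M) with ha
  have hpos : 0 ≤ 1 / (2 * L) := by positivity
  unfold nearWeight
  rw [← ha]
  rcases le_total 0 (1 - L * a) with h4 | h4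
  · rw [max_eq_right h4, le_div_iff₀ (by positivity)]
    nlinarith [sq_nonneg (1 - 2 * L * a)]
  · rw [max_eq_left h4, zero_mul]
    exact hpos

/-- A choice of nearest point of the nonempty finite set `A`. -/
theorem exists_near (A : Finset M) (hA : A.Nonempty) :
    ∃ n : M → M, ∀ x, n x ∈ A ∧ Metric.infDist x (A : Set M) = dist x (n x) := by
  have h : ∀ x : M, ∃ y : M, y ∈ A ∧ Metric.infDist x (A : Set M) = dist x y := by
    intro x
    obtain ⟨y, hy, hxy⟩ := (A.finite_toSet.isCompact).exists_infDist_eq_dist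
      (by exact_mod_cast hA) x
    exact ⟨y, by exact_mod_cast hy, hxy⟩
  choose n hn using h
  exact ⟨n, hn⟩

/-- The linear map `g ↦ (x ↦ c x * g (n x) + (1 - c x) * g z)` on functions. -/
def mixFun (c : M → ℝ) (n : M → M) (z : M) : (M → ℝ) →ₗ[ℝ] (M → ℝ) where
  toFun g := fun x => c x * g (n x) + (1 - c x) * g z
  map_add' g h := by funext x; simp only [Pi.add_apply]; ring
  map_smul' a g := by funext x; simp only [Pi.smul_apply, smul_eq_mul, RingHom.id_apply]; ring

omit [MetricSpace M] in
theorem mixFun_apply (c : M → ℝ) (n : M → M) (z : M) (g : M → ℝ) (x : M) :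
    mixFun c n z g x = c x * g (n x) + (1 - c x) * g z := rfl

/-- The key Lipschitz estimate for the weighted nearest-point map, in the case where `x` is
at least as close to `A` as `y`. -/
theorem mix_estimate {θ R L : ℝ} (hθ : 0 < θ) (hL : 0 < L)
    (hsep : ∀ x y : M, x ≠ y → θ ≤ dist x y) (A : Finset M) (n : M → M)
    (hn : ∀ x, n x ∈ A ∧ Metric.infDist x (A : Set M) = dist x (n x)) (z : M)
    (hz : ∀ a ∈ A, dist z a ≤ R) (g : Lip0 M o) {x y : M} (hne : x ≠ y)
    (hxy : Metric.infDist x (A : Set M) ≤ Metric.infDist y (A : Set M)) :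
    |mixFun (nearWeight L A) n z g x - mixFun (nearWeight L A) n z g y| ≤
      (1 + 1 / (2 * L * θ) + L * R) * ‖g‖ * dist x y := by
  set cx := nearWeight L A x with hcx
  set cy := nearWeight L A y with hcy
  set a := Metric.infDist x (A : Set M) with ha
  set b := Metric.infDist y (A : Set M) with hb
  have hd : θ ≤ dist x y := hsep x y hne
  have hg0 : 0 ≤ ‖g‖ := norm_nonneg g
  obtain ⟨hc0, hc1⟩ := nearWeight_diff hL.le A hxy
  rw [← hcx, ← hcy] at hc0 hc1
  have hcy0 : 0 ≤ cy := nearWeight_nonneg L A y
  have hcy1 : cy ≤ 1 := nearWeight_le_one hL.le A y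
  have hmul : cy * (2 * b) ≤ 1 / (2 * L) := nearWeight_mul_le hL A y
  have hax : a = dist x (n x) := (hn x).2
  have hby : b = dist y (n y) := (hn y).2
  have hb0 : 0 ≤ b := Metric.infDist_nonneg
  -- distance between the nearest points
  have hnn : dist (n x) (n y) ≤ 2 * b + dist x y := by
    have h1 : dist (n x) (n y) ≤ dist (n x) x + dist x y + dist y (n y) := dist_triangle4 _ _ _ _
    rw [dist_comm (n x) x, ← hax, ← hby] at h1
    linarith
  have hnz : dist (n x) z ≤ R := by
    rw [dist_comm]; exact hz _ (hn x).1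
  have hR0 : 0 ≤ R := le_trans dist_nonneg hnz
  have e1 : |g (n x) - g (n y)| ≤ ‖g‖ * dist (n x) (n y) := g.lip _ _
  have e2 : |g (n x) - g z| ≤ ‖g‖ * dist (n x) z := g.lip _ _
  have hsplit : mixFun (nearWeight L A) n z g x - mixFun (nearWeight L A) n z g y
      = cy * (g (n x) - g (n y)) + (cx - cy) * (g (n x) - g z) := by
    rw [mixFun_apply, mixFun_apply, ← hcx, ← hcy]; ring
  rw [hsplit]
  have hd0 : 0 ≤ dist x y := dist_nonneg
  have t1 : |cy * (g (n x) - g (n y))| ≤ ‖g‖ * (1 / (2 * L) + dist x y) := by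
    rw [abs_mul, abs_of_nonneg hcy0]
    calc cy * |g (n x) - g (n y)| ≤ cy * (‖g‖ * dist (n x) (n y)) :=
          mul_le_mul_of_nonneg_left e1 hcy0
      _ ≤ cy * (‖g‖ * (2 * b + dist x y)) := by gcongr
      _ = ‖g‖ * (cy * (2 * b) + cy * dist x y) := by ring
      _ ≤ ‖g‖ * (1 / (2 * L) + 1 * dist x y) := by gcongr
      _ = ‖g‖ * (1 / (2 * L) + dist x y) := by ring
  have t2 : |(cx - cy) * (g (n x) - g z)| ≤ ‖g‖ * (L * dist x y * R) := by
    rw [abs_mul, abs_of_nonneg hc0]
    calc (cx - cy) * |g (n x) - g z| ≤ (cx - cy) * (‖g‖ * dist (n x) z) :=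
          mul_le_mul_of_nonneg_left e2 hc0
      _ ≤ (L * dist x y) * (‖g‖ * R) := by gcongr
      _ = ‖g‖ * (L * dist x y * R) := by ring
  have t3 : 1 / (2 * L) ≤ 1 / (2 * L * θ) * dist x y := by
    have h1 : 1 / (2 * L * θ) * dist x y = (1 / (2 * L)) * (dist x y / θ) := by
      field_simp
    rw [h1]
    have h2 : 1 ≤ dist x y / θ := by
      rw [le_div_iff₀ hθ]; linarith
    have h3 : 0 ≤ 1 / (2 * L) := by positivity
    nlinarith
  calc |cy * (g (n x) - g (n y)) + (cx - cy) * (g (n x) - g z)|
      ≤ |cy * (g (n x) - g (n y))| + |(cx - cy) * (g (n x) - g z)| := abs_add_le _ _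
    _ ≤ ‖g‖ * (1 / (2 * L) + dist x y) + ‖g‖ * (L * dist x y * R) := add_le_add t1 t2
    _ ≤ ‖g‖ * (1 / (2 * L * θ) * dist x y + dist x y) + ‖g‖ * (L * dist x y * R) := by
        gcongr
    _ = (1 + 1 / (2 * L * θ) + L * R) * ‖g‖ * dist x y := by ring

/-- The Lipschitz estimate for the weighted nearest-point map, for all pairs of points. -/
theorem mix_lip {θ R L : ℝ} (hθ : 0 < θ) (hL : 0 < L)
    (hsep : ∀ x y : M, x ≠ y → θ ≤ dist x y) (A : Finset M) (n : M → M)
    (hn : ∀ x, n x ∈ A ∧ Metric.infDist x (A : Set M) = dist x (n x)) (z : M)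
    (hz : ∀ a ∈ A, dist z a ≤ R) (g : Lip0 M o) (x y : M) :
    |mixFun (nearWeight L A) n z g x - mixFun (nearWeight L A) n z g y| ≤
      (1 + 1 / (2 * L * θ) + L * R) * ‖g‖ * dist x y := by
  by_cases hne : x = y
  · subst hne
    simp
  · rcases le_total (Metric.infDist x (A : Set M)) (Metric.infDist y (A : Set M)) with h | h
    · exact mix_estimate hθ hL hsep A n hn z hz g hne h
    · have := mix_estimate hθ hL hsep A n hn z hz g (Ne.symm hne) h
      rw [abs_sub_comm, dist_comm]
      exact this

/-- For every slope `L > 0`: a separated space with the finite cone-point property of radius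
`R` has the bounded approximation property with constant `1 + 1 / (2 L θ) + L R`. -/
theorem HasBAP.of_cone_slope (o : M) {θ R L : ℝ} (hθ : 0 < θ) (hL : 0 < L) (hR : 0 ≤ R)
    (hsep : ∀ x y : M, x ≠ y → θ ≤ dist x y)
    (hcone : ∀ A : Finset M, ∃ c : M, ∀ a ∈ A, dist c a ≤ R) :
    HasBAP (1 + 1 / (2 * L * θ) + L * R) (LipFree M o) := by
  classical
  have hC0 : 0 ≤ 1 + 1 / (2 * L * θ) + L * R := by positivity
  refine HasBAP.of_finite_ops o _ (fun A0 => ?_)
  set A : Finset M := insert o A0 with hA
  have hoA : o ∈ A := Finset.mem_insert_self _ _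
  obtain ⟨n, hn⟩ := exists_near A ⟨o, hoA⟩
  obtain ⟨z, hz⟩ := hcone A
  have hfixn : ∀ a ∈ A, n a = a := by
    intro a ha
    have h1 : Metric.infDist a (A : Set M) = 0 :=
      Metric.infDist_zero_of_mem (by exact_mod_cast ha)
    have h2 := (hn a).2
    rw [h1] at h2
    exact (dist_eq_zero.mp h2.symm).symm
  -- the operator on Lipschitz functions
  set Q : Lip0 M o →L[ℝ] Lip0 M o :=
    Lip0.mkCLM (mixFun (nearWeight L A) n z) (1 + 1 / (2 * L * θ) + L * R) hC0
      (fun g => by
        rw [mixFun_apply, nearWeight_of_mem L hoA, hfixn o hoA]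
        have : g.1 o = 0 := g.map_base
        rw [this]; ring)
      (fun g x y => mix_lip hθ hL hsep A n hn z hz g x y) with hQ
  have hcomp : ∀ x, (delta o x).comp Q =
      nearWeight L A x • delta o (n x) + (1 - nearWeight L A x) • delta o z := by
    intro x
    ext g
    rfl
  set T : LipFree M o →L[ℝ] LipFree M o := LipFree.ofDual Q (fun x => by
    rw [hcomp]
    exact Submodule.add_mem _ (Submodule.smul_mem _ _ (delta_mem _))
      (Submodule.smul_mem _ _ (delta_mem _))) with hT
  have hTd : ∀ x, T (LipFree.d o x) =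
      nearWeight L A x • LipFree.d o (n x) + (1 - nearWeight L A x) • LipFree.d o z := by
    intro x
    apply LipFree.ext
    exact hcomp x
  refine ⟨T, ?_, ?_, fun a ha => ?_⟩
  · set V : Submodule ℝ (LipFree M o) :=
      Submodule.span ℝ (LipFree.d o '' ((insert z A : Finset M) : Set M)) with hV
    have hVfin : FiniteDimensional ℝ V :=
      FiniteDimensional.span_of_finite ℝ ((Finset.finite_toSet _).image _)
    have hle : LinearMap.range (T : LipFree M o →ₗ[ℝ] LipFree M o) ≤ V := by
      rintro _ ⟨u, rfl⟩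
      refine LipFree.mem_of_d_mem T V (Submodule.closed_of_finiteDimensional V) (fun x => ?_) u
      rw [hTd]
      refine Submodule.add_mem _ (Submodule.smul_mem _ _ (Submodule.subset_span ?_))
        (Submodule.smul_mem _ _ (Submodule.subset_span ?_))
      · exact ⟨n x, by exact_mod_cast Finset.mem_insert_of_mem (hn x).1, rfl⟩
      · exact ⟨z, by exact_mod_cast Finset.mem_insert_self z A, rfl⟩
    exact Submodule.finiteDimensional_of_le hle
  · exact (LipFree.norm_ofDual_le _ _).trans (Lip0.norm_mkCLM_le _ _ _ _ _)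
  · have haA : a ∈ A := Finset.mem_insert_of_mem ha
    rw [hTd, nearWeight_of_mem L haA, hfixn a haA]
    simp

/-- Square-root bound: if distinct points of `M` are at distance at least `θ > 0` and every
finite subset of `M` lies within distance `R` of some point of `M`, then the free space of
`M` has the bounded approximation property with constant `1 + √(2 R / θ)`. -/
theorem HasBAP.of_cone_sqrt (o : M) {θ R : ℝ} (hθ : 0 < θ) (hR : 0 ≤ R)
    (hsep : ∀ x y : M, x ≠ y → θ ≤ dist x y)
    (hcone : ∀ A : Finset M, ∃ c : M, ∀ a ∈ A, dist c a ≤ R) :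
    HasBAP (1 + Real.sqrt (2 * R / θ)) (LipFree M o) := by
  rcases eq_or_lt_of_le hR with h0 | hpos
  · -- `R = 0`: let the slope tend to infinity
    subst h0
    refine HasBAP.of_forall_gt (fun b hb => ?_)
    have hb1 : 1 < b := by simpa using hb
    have hL : 0 < 1 / (2 * θ * (b - 1)) := by
      have : 0 < b - 1 := by linarith
      positivity
    have h := HasBAP.of_cone_slope o hθ hL le_rfl hsep hcone
    refine HasBAP.mono ?_ h
    have hb' : 0 < b - 1 := by linarith
    have e : 1 / (2 * (1 / (2 * θ * (b - 1))) * θ) = b - 1 := by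
      field_simp
    rw [e]
    linarith
  · set s := Real.sqrt (2 * R / θ) with hs
    have hq : 0 < 2 * R / θ := by positivity
    have hspos : 0 < s := Real.sqrt_pos.mpr hq
    have hsq : s * s = 2 * R / θ := Real.mul_self_sqrt hq.le
    have hL : 0 < 1 / (s * θ) := by positivity
    have h := HasBAP.of_cone_slope o hθ hL hR hsep hcone
    refine HasBAP.mono (le_of_eq ?_) h
    have hRs : R = s * s * θ / 2 := by
      rw [hsq]; field_simp
    have e1 : 1 / (2 * (1 / (s * θ)) * θ) = s / 2 := by
      field_simp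
    have e2 : 1 / (s * θ) * R = s / 2 := by
      rw [hRs]; field_simp
    rw [e1, e2]; ring

end Vale.Agent.Lib.P090
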