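import Vale.Agent.Lib.P090.Cutoff
import Vale.Agent.Lib.P090.Sqrt

/-! Level cut-offs: if every point has only finitely many points that are `lam` times closer
to it than the base point, the free space has the `lam`-BAP. Also the finite cone-point
criterion. -/

namespace Vale.Agent.Lib.P090

variable {M : Type*} [MetricSpace M]

/-- The levels generated from a set `A`: the next level adds every point `y` that is `lam`
times closer to some point `x` of the current level than the base point is. -/
def nearLevel (o : M) (lam : ℝ) (A : Set M) : ℕ → Set M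
  | 0 => A
  | (k + 1) => nearLevel o lam A k ∪
      {y | ∃ x ∈ nearLevel o lam A k, lam * dist x y < dist x o}

theorem nearLevel_finite (o : M) (lam : ℝ)
    (hfin : ∀ x : M, {y : M | lam * dist x y < dist x o}.Finite)
    {A : Set M} (hA : A.Finite) : ∀ k, (nearLevel o lam A k).Finite
  | 0 => hA
  | (k + 1) => by
      have ih := nearLevel_finite o lam hfin hA k
      have h2 : {y | ∃ x ∈ nearLevel o lam A k, lam * dist x y < dist x o}
          = ⋃ x ∈ nearLevel o lam A k, {y | lam * dist x y < dist x o} := by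
        ext y; simp
      show (nearLevel o lam A k ∪ _).Finite
      rw [h2]
      exact ih.union (ih.biUnion (fun x _ => hfin x))

theorem nearLevel_succ_mem (o : M) (lam : ℝ) (A : Set M) (k : ℕ) {x y : M}
    (hx : x ∈ nearLevel o lam A k) (hxy : lam * dist x y < dist x o) :
    y ∈ nearLevel o lam A (k + 1) :=
  Or.inr ⟨x, hx, hxy⟩

open Classical in
/-- The index of the first level below `N` containing `x`, or `N` if there is none. -/
noncomputable def levIdx (S : ℕ → Set M) (N : ℕ) (x : M) : ℕ :=
  if h : ∃ k, k < N ∧ x ∈ S k then Nat.find h else N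

omit [MetricSpace M] in
theorem levIdx_le (S : ℕ → Set M) (N : ℕ) (x : M) : levIdx S N x ≤ N := by
  classical
  unfold levIdx
  split_ifs with h
  · exact (Nat.find_spec h).1.le
  · exact le_rfl

omit [MetricSpace M] in
theorem levIdx_le_of_mem (S : ℕ → Set M) {N k : ℕ} {x : M} (hk : k < N) (hx : x ∈ S k) :
    levIdx S N x ≤ k := by
  classical
  unfold levIdx
  have h : ∃ k, k < N ∧ x ∈ S k := ⟨k, hk, hx⟩
  rw [dif_pos h]
  exact Nat.find_min' h ⟨hk, hx⟩

omit [MetricSpace M] in
theorem mem_of_levIdx_lt (S : ℕ → Set M) {N : ℕ} {x : M} (h : levIdx S N x < N) :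
    x ∈ S (levIdx S N x) := by
  classical
  unfold levIdx at h ⊢
  split_ifs with h'
  · exact (Nat.find_spec h').2
  · rw [dif_neg h'] at h
    exact absurd h (lt_irrefl _)

omit [MetricSpace M] in
theorem levIdx_eq_zero (S : ℕ → Set M) (N : ℕ) {x : M} (hx : x ∈ S 0) : levIdx S N x = 0 := by
  rcases Nat.eq_zero_or_pos N with h | h
  · have := levIdx_le S N x
    omega
  · have := levIdx_le_of_mem S h hx
    omega

/-- The profile of the level cut-off: `0` at level `0`, growing geometrically, capped at
`1`. -/
noncomputable def levProfile (η a : ℝ) (k : ℕ) : ℝ := min 1 (η * (a ^ k - 1))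

theorem levProfile_zero (η a : ℝ) : levProfile η a 0 = 0 := by
  simp [levProfile]

theorem levProfile_nonneg {η a : ℝ} (hη : 0 ≤ η) (ha : 1 ≤ a) (k : ℕ) :
    0 ≤ levProfile η a k := by
  have h1 : 1 ≤ a ^ k := one_le_pow₀ ha
  exact le_min zero_le_one (mul_nonneg hη (by linarith))

theorem levProfile_le_one (η a : ℝ) (k : ℕ) : levProfile η a k ≤ 1 := min_le_left _ _

theorem levProfile_mono {η a : ℝ} (hη : 0 ≤ η) (ha : 1 ≤ a) {j k : ℕ} (h : j ≤ k) :
    levProfile η a j ≤ levProfile η a k := by
  have h1 : a ^ j ≤ a ^ k := pow_le_pow_right₀ ha h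
  exact min_le_min le_rfl (mul_le_mul_of_nonneg_left (by linarith) hη)

theorem levProfile_step {η a : ℝ} (hη : 0 ≤ η) (ha : 1 ≤ a) (k : ℕ) :
    levProfile η a (k + 1) + η ≤ a * (levProfile η a k + η) := by
  have h1 : 1 ≤ a ^ k := one_le_pow₀ ha
  unfold levProfile
  rcases le_total 1 (η * (a ^ k - 1)) with h | h
  · rw [min_eq_left h]
    have : min 1 (η * (a ^ (k + 1) - 1)) ≤ 1 := min_le_left _ _
    nlinarith
  · rw [min_eq_right h]
    have h2 : min 1 (η * (a ^ (k + 1) - 1)) ≤ η * (a ^ (k + 1) - 1) := min_le_right _ _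
    have h3 : a * (η * (a ^ k - 1) + η) = η * (a ^ (k + 1) - 1) + η := by
      rw [pow_succ]; ring
    rw [h3]
    linarith

omit [MetricSpace M] in
/-- The linear map `g ↦ (x ↦ c x * g x)` on functions. -/
def mulFun (c : M → ℝ) : (M → ℝ) →ₗ[ℝ] (M → ℝ) where
  toFun g := fun x => c x * g x
  map_add' g h := by funext x; simp only [Pi.add_apply]; ring
  map_smul' a g := by funext x; simp only [Pi.smul_apply, smul_eq_mul, RingHom.id_apply]; ring

omit [MetricSpace M] in
theorem mulFun_apply (c : M → ℝ) (g : M → ℝ) (x : M) : mulFun c g x = c x * g x := rfl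

/-- The Lipschitz estimate for multiplication by `1 - s`, in the case `s x ≤ s y`. -/
theorem mul_estimate (o : M) {lam η : ℝ} (hlam : 1 ≤ lam) (hη : 0 ≤ η) (s : M → ℝ)
    (hs0 : ∀ x, 0 ≤ s x) (hs1 : ∀ x, s x ≤ 1)
    (hP : ∀ x y, s x < s y → lam * dist x y < dist x o →
      (s y - s x) * dist x o ≤ (s y + η) * dist x y)
    (g : Lip0 M o) {x y : M} (hxy : s x ≤ s y) :
    |mulFun (fun z => 1 - s z) g x - mulFun (fun z => 1 - s z) g y| ≤
      max lam (1 + η) * ‖g‖ * dist x y := by
  have hg0 : 0 ≤ ‖g‖ := norm_nonneg g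
  have hd0 : 0 ≤ dist x y := dist_nonneg
  have e1 : |g x - g y| ≤ ‖g‖ * dist x y := g.lip x y
  have e2 : |g x| ≤ ‖g‖ * dist x o := g.abs_apply_le x
  have hsplit : mulFun (fun z => 1 - s z) g x - mulFun (fun z => 1 - s z) g y
      = (1 - s y) * (g x - g y) + (s y - s x) * g x := by
    rw [mulFun_apply, mulFun_apply]; ring
  rw [hsplit]
  have hc0 : 0 ≤ 1 - s y := by linarith [hs1 y]
  have hdiff : 0 ≤ s y - s x := by linarith
  have t1 : |(1 - s y) * (g x - g y)| ≤ (1 - s y) * (‖g‖ * dist x y) := by
    rw [abs_mul, abs_of_nonneg hc0]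
    exact mul_le_mul_of_nonneg_left e1 hc0
  have t2 : |(s y - s x) * g x| ≤ (s y - s x) * (‖g‖ * dist x o) := by
    rw [abs_mul, abs_of_nonneg hdiff]
    exact mul_le_mul_of_nonneg_left e2 hdiff
  have hsum : |(1 - s y) * (g x - g y) + (s y - s x) * g x| ≤
      (1 - s y) * (‖g‖ * dist x y) + (s y - s x) * (‖g‖ * dist x o) :=
    (abs_add_le _ _).trans (add_le_add t1 t2)
  refine hsum.trans ?_
  rcases le_or_gt (dist x o) (lam * dist x y) with hA | hB
  · -- the base point is not much farther than `y`
    have h1 : (s y - s x) * (‖g‖ * dist x o) ≤ (s y - s x) * (‖g‖ * (lam * dist x y)) := by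
      gcongr
    have h2 : (1 - s y) * (‖g‖ * dist x y) ≤ (1 - s y) * (‖g‖ * (lam * dist x y)) := by
      have : ‖g‖ * dist x y ≤ ‖g‖ * (lam * dist x y) := by
        have : dist x y ≤ lam * dist x y := by nlinarith
        gcongr
      gcongr
    have h3 : (1 - s y) * (‖g‖ * (lam * dist x y)) + (s y - s x) * (‖g‖ * (lam * dist x y))
        = (1 - s x) * (lam * ‖g‖ * dist x y) := by ring
    have h4 : (1 - s x) * (lam * ‖g‖ * dist x y) ≤ 1 * (lam * ‖g‖ * dist x y) := by
      have : 0 ≤ lam * ‖g‖ * dist x y := by positivity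
      have hsx : 1 - s x ≤ 1 := by linarith [hs0 x]
      exact mul_le_mul_of_nonneg_right hsx this
    have h5 : lam * ‖g‖ * dist x y ≤ max lam (1 + η) * ‖g‖ * dist x y := by
      have := le_max_left lam (1 + η)
      gcongr
    linarith
  · -- `y` is much closer to `x` than the base point
    have h5 : (1 + η) * ‖g‖ * dist x y ≤ max lam (1 + η) * ‖g‖ * dist x y := by
      have := le_max_right lam (1 + η)
      gcongr
    rcases eq_or_lt_of_le hxy with heq | hlt
    · rw [heq, sub_self, zero_mul, add_zero]
      have h6 : (1 - s y) * (‖g‖ * dist x y) ≤ 1 * (‖g‖ * dist x y) := by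
        have : 0 ≤ ‖g‖ * dist x y := by positivity
        have hsy : 1 - s y ≤ 1 := by linarith [hs0 y]
        exact mul_le_mul_of_nonneg_right hsy this
      have h7 : ‖g‖ * dist x y ≤ (1 + η) * ‖g‖ * dist x y := by
        have : 0 ≤ ‖g‖ * dist x y := by positivity
        nlinarith
      linarith
    · have h6 := hP x y hlt hB
      have h7 : (s y - s x) * (‖g‖ * dist x o) ≤ ‖g‖ * ((s y + η) * dist x y) := by
        have : (s y - s x) * (‖g‖ * dist x o) = ‖g‖ * ((s y - s x) * dist x o) := by ring
        rw [this]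
        exact mul_le_mul_of_nonneg_left h6 hg0
      have h8 : (1 - s y) * (‖g‖ * dist x y) + ‖g‖ * ((s y + η) * dist x y)
          = (1 + η) * ‖g‖ * dist x y := by ring
      linarith

/-- The Lipschitz estimate for multiplication by `1 - s`, for all pairs of points. -/
theorem mul_lip (o : M) {lam η : ℝ} (hlam : 1 ≤ lam) (hη : 0 ≤ η) (s : M → ℝ)
    (hs0 : ∀ x, 0 ≤ s x) (hs1 : ∀ x, s x ≤ 1)
    (hP : ∀ x y, s x < s y → lam * dist x y < dist x o →
      (s y - s x) * dist x o ≤ (s y + η) * dist x y)
    (g : Lip0 M o) (x y : M) :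
    |mulFun (fun z => 1 - s z) g x - mulFun (fun z => 1 - s z) g y| ≤
      max lam (1 + η) * ‖g‖ * dist x y := by
  rcases le_total (s x) (s y) with h | h
  · exact mul_estimate o hlam hη s hs0 hs1 hP g h
  · have := mul_estimate o hlam hη s hs0 hs1 hP g h
    rw [abs_sub_comm, dist_comm]
    exact this

/-- A finite-rank operator on the free space from a weight `1 - s` with finite support which
satisfies the Lipschitz compatibility condition. -/
theorem exists_mul_op (o : M) {lam η : ℝ} (hlam : 1 ≤ lam) (hη : 0 ≤ η) (s : M → ℝ)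
    (hs0 : ∀ x, 0 ≤ s x) (hs1 : ∀ x, s x ≤ 1)
    (hP : ∀ x y, s x < s y → lam * dist x y < dist x o →
      (s y - s x) * dist x o ≤ (s y + η) * dist x y)
    (U : Set M) (hU : U.Finite) (hsU : ∀ x, x ∉ U → s x = 1) :
    ∃ T : LipFree M o →L[ℝ] LipFree M o,
      FiniteDimensional ℝ (LinearMap.range (T : LipFree M o →ₗ[ℝ] LipFree M o)) ∧
        ‖T‖ ≤ max lam (1 + η) ∧ ∀ x, T (LipFree.d o x) = (1 - s x) • LipFree.d o x := by
  have hC0 : 0 ≤ max lam (1 + η) := le_trans (by linarith) (le_max_left _ _)
  set Q : Lip0 M o →L[ℝ] Lip0 M o :=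
    Lip0.mkCLM (mulFun (fun z => 1 - s z)) (max lam (1 + η)) hC0
      (fun g => by
        rw [mulFun_apply]
        have : g.1 o = 0 := g.map_base
        rw [this, mul_zero])
      (fun g x y => mul_lip o hlam hη s hs0 hs1 hP g x y) with hQ
  have hcomp : ∀ x, (delta o x).comp Q = (1 - s x) • delta o x := by
    intro x
    ext g
    rfl
  set T : LipFree M o →L[ℝ] LipFree M o := LipFree.ofDual Q (fun x => by
    rw [hcomp]
    exact Submodule.smul_mem _ _ (delta_mem _)) with hT
  have hTd : ∀ x, T (LipFree.d o x) = (1 - s x) • LipFree.d o x := by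
    intro x
    apply LipFree.ext
    exact hcomp x
  refine ⟨T, ?_, (LipFree.norm_ofDual_le _ _).trans (Lip0.norm_mkCLM_le _ _ _ _ _), hTd⟩
  set V : Submodule ℝ (LipFree M o) := Submodule.span ℝ (LipFree.d o '' U) with hV
  have hVfin : FiniteDimensional ℝ V := FiniteDimensional.span_of_finite ℝ (hU.image _)
  have hle : LinearMap.range (T : LipFree M o →ₗ[ℝ] LipFree M o) ≤ V := by
    rintro _ ⟨u, rfl⟩
    refine LipFree.mem_of_d_mem T V (Submodule.closed_of_finiteDimensional V) (fun x => ?_) u
    rw [hTd]
    by_cases hx : x ∈ U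
    · exact Submodule.smul_mem _ _ (Submodule.subset_span ⟨x, hx, rfl⟩)
    · rw [hsU x hx, sub_self, zero_smul]
      exact Submodule.zero_mem _
  exact Submodule.finiteDimensional_of_le hle

/-- The bounded case: if distinct points are at distance at least `θ`, all points are within
`R` of the base point, and every point has only finitely many points `lam` times closer to
it than the base point, then the free space has the `max lam (1 + η)`-BAP for every
`η > 0`. -/
theorem HasBAP.of_near_finite_bdd (o : M) {θ R lam η : ℝ} (hθ : 0 < θ) (hlam : 1 ≤ lam)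
    (hη : 0 < η) (hsep : ∀ x y : M, x ≠ y → θ ≤ dist x y) (hR : ∀ x : M, dist x o ≤ R)
    (hfin : ∀ x : M, {y : M | lam * dist x y < dist x o}.Finite) :
    HasBAP (max lam (1 + η)) (LipFree M o) := by
  classical
  refine HasBAP.of_finite_ops o _ (fun A0 => ?_)
  -- the radius bound and the growth factor
  set Rb : ℝ := max R θ + θ with hRb
  have hRbθ : θ < Rb := by
    have := le_max_right R θ
    linarith
  have hRbR : R ≤ Rb := by
    have := le_max_left R θ
    linarith
  have hRb0 : 0 < Rb - θ := by linarith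
  set a : ℝ := Rb / (Rb - θ) with ha
  have ha1 : 1 < a := by
    rw [ha, lt_div_iff₀ hRb0]
    linarith
  have ha1' : 1 ≤ a := ha1.le
  obtain ⟨N, hN⟩ := pow_unbounded_of_one_lt (1 + 1 / η) ha1
  have hgN : levProfile η a N = 1 := by
    unfold levProfile
    refine min_eq_left ?_
    have h1 : η * (1 + 1 / η) = η + 1 := by field_simp
    have h2 : η * (1 + 1 / η) < η * a ^ N := mul_lt_mul_of_pos_left hN hη
    nlinarith
  set S : ℕ → Set M := nearLevel o lam (A0 : Set M) with hS
  have hSfin : ∀ k, (S k).Finite := nearLevel_finite o lam hfin A0.finite_toSet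
  set s : M → ℝ := fun x => levProfile η a (levIdx S N x) with hs
  have hs0 : ∀ x, 0 ≤ s x := fun x => levProfile_nonneg hη.le ha1' _
  have hs1 : ∀ x, s x ≤ 1 := fun x => levProfile_le_one _ _ _
  -- the compatibility condition
  have hP : ∀ x y, s x < s y → lam * dist x y < dist x o →
      (s y - s x) * dist x o ≤ (s y + η) * dist x y := by
    intro x y hlt hclose
    have hne : x ≠ y := by
      rintro rfl
      exact lt_irrefl _ hlt
    have hlev : levIdx S N x < levIdx S N y := by
      by_contra hcon
      have hcon := not_lt.mp hcon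
      have := levProfile_mono hη.le ha1' (η := η) (a := a) hcon
      exact absurd hlt (not_lt.mpr this)
    have hxN : levIdx S N x < N := lt_of_lt_of_le hlev (levIdx_le S N y)
    have hxmem : x ∈ S (levIdx S N x) := mem_of_levIdx_lt S hxN
    have hymem : y ∈ S (levIdx S N x + 1) := nearLevel_succ_mem o lam _ _ hxmem hclose
    have hyle : levIdx S N y ≤ levIdx S N x + 1 := by
      rcases lt_or_ge (levIdx S N x + 1) N with h | h
      · exact levIdx_le_of_mem S h hymem
      · exact (levIdx_le S N y).trans h
    have hyeq : levIdx S N y = levIdx S N x + 1 := by omega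
    set k := levIdx S N x with hk
    have hsx : s x = levProfile η a k := rfl
    have hsy : s y = levProfile η a (k + 1) := by
      show levProfile η a (levIdx S N y) = _
      rw [hyeq]
    rw [hsx, hsy]
    have hstep := levProfile_step hη.le ha1' (η := η) (a := a) k
    have hmono := levProfile_mono hη.le ha1' (η := η) (a := a) (Nat.le_succ k)
    set u := levProfile η a k with hu
    set v := levProfile η a (k + 1) with hv
    have hv0 : 0 ≤ v := levProfile_nonneg hη.le ha1' _
    -- `(v - u) * Rb ≤ (v + η) * θ`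
    have hkey : (v - u) * Rb ≤ (v + η) * θ := by
      have h1 : (v + η) * (Rb - θ) ≤ (u + η) * Rb := by
        have h2 : a * (u + η) * (Rb - θ) = (u + η) * Rb := by
          rw [ha]; field_simp
        have h3 : (v + η) * (Rb - θ) ≤ a * (u + η) * (Rb - θ) :=
          mul_le_mul_of_nonneg_right hstep hRb0.le
        linarith
      nlinarith
    have hd : θ ≤ dist x y := hsep x y hne
    have hvu : 0 ≤ v - u := by linarith
    calc (v - u) * dist x o ≤ (v - u) * Rb :=
          mul_le_mul_of_nonneg_left ((hR x).trans hRbR) hvu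
      _ ≤ (v + η) * θ := hkey
      _ ≤ (v + η) * dist x y := mul_le_mul_of_nonneg_left hd (by linarith)
  -- the support
  set U : Set M := ⋃ k ∈ Finset.range N, S k with hU
  have hUfin : U.Finite :=
    Set.Finite.biUnion (Finset.range N).finite_toSet (fun k _ => hSfin k)
  have hsU : ∀ x, x ∉ U → s x = 1 := by
    intro x hx
    have hidx : levIdx S N x = N := by
      by_contra hcon
      have hlt : levIdx S N x < N := lt_of_le_of_ne (levIdx_le S N x) hcon
      have hmem := mem_of_levIdx_lt S hlt
      apply hx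
      rw [hU]
      simp only [Set.mem_iUnion, Finset.mem_range, exists_prop]
      exact ⟨_, hlt, hmem⟩
    show levProfile η a (levIdx S N x) = 1
    rw [hidx, hgN]
  obtain ⟨T, hTfin, hTnorm, hTd⟩ := exists_mul_op o hlam hη.le s hs0 hs1 hP U hUfin hsU
  refine ⟨T, hTfin, hTnorm, fun x hx => ?_⟩
  have hx0 : x ∈ S 0 := by
    show x ∈ (A0 : Set M)
    exact_mod_cast hx
  have hsx : s x = 0 := by
    show levProfile η a (levIdx S N x) = 0
    rw [levIdx_eq_zero S N hx0, levProfile_zero]
  rw [hTd, hsx, sub_zero, one_smul]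

/-- Radial finiteness criterion: if distinct points of `M` are at distance at least `θ > 0`
and, for some `lam ≥ 1`, every point `x` has only finitely many points `y` with
`lam * dist x y < dist x o`, then the free space of `M` has the `lam`-BAP. -/
theorem HasBAP.of_near_finite (o : M) {θ lam : ℝ} (hθ : 0 < θ) (hlam : 1 ≤ lam)
    (hsep : ∀ x y : M, x ≠ y → θ ≤ dist x y)
    (hfin : ∀ x : M, {y : M | lam * dist x y < dist x o}.Finite) :
    HasBAP lam (LipFree M o) := by
  refine HasBAP.of_balls o lam (fun r hr => ?_)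
  refine HasBAP.of_forall_gt (fun b hb => ?_)
  have hb1 : 0 < b - 1 := by linarith
  have h := HasBAP.of_near_finite_bdd (M := Metric.closedBall o r) (ballBase o hr)
    (θ := θ) (R := r) (lam := lam) (η := b - 1) hθ hlam hb1
    (fun x y hxy => hsep x.1 y.1 (fun h => hxy (Subtype.ext h)))
    (fun x => Metric.mem_closedBall.mp x.2)
    (fun x => by
      have h1 := hfin x.1
      have h2 : {y : Metric.closedBall o r | lam * dist x y < dist x (ballBase o hr)}
          = Subtype.val ⁻¹' {y : M | lam * dist x.1 y < dist x.1 o} := by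
        ext y; rfl
      rw [h2]
      exact h1.preimage Subtype.val_injective.injOn)
  refine h.mono ?_
  rw [max_le_iff]
  constructor <;> linarith

/-- Finite cone-point criterion: if distinct points are at distance at least `θ` and every
finite subset of `M` lies within `K * θ` of some point of `M`, then the free space has the
`K`-BAP. -/
theorem HasBAP.of_finite_cone (o : M) {θ K : ℝ} (hK : 1 ≤ K)
    (hsep : ∀ x y : M, x ≠ y → θ ≤ dist x y)
    (hcone : ∀ A : Finset M, ∃ c : M, ∀ a ∈ A, dist c a ≤ K * θ) :
    HasBAP K (LipFree M o) := by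
  classical
  have hK0 : 0 ≤ K := le_trans zero_le_one hK
  refine HasBAP.of_finite_retractions o K hK0 (fun A => ?_)
  obtain ⟨c, hc⟩ := hcone A
  refine ⟨fun x => if x ∈ A then x else c, ?_, fun a ha => by simp [ha], fun x y => ?_⟩
  · refine ((A.finite_toSet).insert c).subset ?_
    rintro _ ⟨x, rfl⟩
    by_cases hx : x ∈ A
    · simp [hx]
    · simp [hx]
  · have hd : 0 ≤ dist x y := dist_nonneg
    by_cases hx : x ∈ A <;> by_cases hy : y ∈ A
    · simp only [hx, hy, if_true]
      nlinarith
    · simp only [hx, hy, if_true, if_false]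
      have hxy : x ≠ y := fun h => hy (h ▸ hx)
      have h1 := hsep x y hxy
      have h2 := hc x hx
      rw [dist_comm]
      calc dist c x ≤ K * θ := h2
        _ ≤ K * dist x y := by gcongr
    · simp only [hx, hy, if_true, if_false]
      have hxy : x ≠ y := fun h => hx (h ▸ hy)
      have h1 := hsep x y hxy
      have h2 := hc y hy
      calc dist c y ≤ K * θ := h2
        _ ≤ K * dist x y := by gcongr
    · simp only [hx, hy, if_false, dist_self]
      positivity

end Vale.Agent.Lib.P090
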