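import Vale.Agent.Lib.P090.Basic
import Vale.Agent.Lib.P090.BAP

/-! Functoriality of the free space for Lipschitz maps, and the finite-retraction criterion
for the bounded approximation property. -/

namespace Vale.Agent.Lib.P090

variable {M : Type*} [MetricSpace M] {o : M}
variable {M' : Type*} [MetricSpace M'] {o' : M'}

/-- A continuous linear map on the free space with values in a closed submodule on the
evaluations has all its values in that submodule. -/
theorem LipFree.mem_of_d_mem {X : Type*} [NormedAddCommGroup X] [NormedSpace ℝ X]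
    (T : LipFree M o →L[ℝ] X) (V : Submodule ℝ X) (hV : IsClosed (V : Set X))
    (h : ∀ x, T (LipFree.d o x) ∈ V) (u : LipFree M o) : T u ∈ V := by
  have h1 : (Submodule.span ℝ (Set.range (LipFree.d o)) : Submodule ℝ (LipFree M o)) ≤
      V.comap (T : LipFree M o →ₗ[ℝ] X) := by
    rw [Submodule.span_le]
    rintro _ ⟨x, rfl⟩
    exact h x
  have h2 : IsClosed ((V.comap (T : LipFree M o →ₗ[ℝ] X) : Submodule ℝ (LipFree M o)) :
      Set (LipFree M o)) := hV.preimage T.continuous
  exact closure_minimal h1 h2 (LipFree.dense_span u)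

/-- Two continuous linear maps on the free space that agree on the evaluations are equal. -/
theorem LipFree.ext_of_d {X : Type*} [NormedAddCommGroup X] [NormedSpace ℝ X]
    (S T : LipFree M o →L[ℝ] X) (h : ∀ x, S (LipFree.d o x) = T (LipFree.d o x)) : S = T := by
  ext u
  have h1 := LipFree.mem_of_d_mem (S - T) ⊥ (by
    show IsClosed ({0} : Set X)
    exact isClosed_singleton) (fun x => by
      show (S - T) (LipFree.d o x) ∈ (⊥ : Submodule ℝ X)
      rw [Submodule.mem_bot]
      show S (LipFree.d o x) - T (LipFree.d o x) = 0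
      rw [h x, sub_self]) u
  rw [Submodule.mem_bot] at h1
  exact sub_eq_zero.mp h1

/-- The linear map `g ↦ (x ↦ g (r x) - g (r o))` on functions. -/
def compFun (o : M) (r : M → M') : (M' → ℝ) →ₗ[ℝ] (M → ℝ) where
  toFun g := fun x => g (r x) - g (r o)
  map_add' g h := by funext x; simp only [Pi.add_apply]; ring
  map_smul' c g := by funext x; simp only [Pi.smul_apply, smul_eq_mul, RingHom.id_apply]; ring

/-- Composition with a Lipschitz map `r : M → M'` as an operator `Lip0 M' o' → Lip0 M o`. -/
noncomputable def Lip0.comp (o : M) (o' : M') (r : M → M') (K : ℝ) (hK0 : 0 ≤ K)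
    (hr : ∀ x y, dist (r x) (r y) ≤ K * dist x y) : Lip0 M' o' →L[ℝ] Lip0 M o :=
  Lip0.mkCLM (compFun o r) K hK0 (fun g => by simp [compFun]) (fun g x y => by
    have h1 := g.lip (r x) (r y)
    have h2 : compFun o r g x - compFun o r g y = g (r x) - g (r y) := by
      simp only [compFun, LinearMap.coe_mk, AddHom.coe_mk]; ring
    rw [h2]
    calc |g (r x) - g (r y)| ≤ ‖g‖ * dist (r x) (r y) := h1
      _ ≤ ‖g‖ * (K * dist x y) := by gcongr; exact hr x y
      _ = K * ‖g‖ * dist x y := by ring)

theorem Lip0.comp_apply (r : M → M') (K : ℝ) (hK0 : 0 ≤ K)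
    (hr : ∀ x y, dist (r x) (r y) ≤ K * dist x y) (g : Lip0 M' o') (x : M) :
    Lip0.comp o o' r K hK0 hr g x = g (r x) - g (r o) := rfl

theorem Lip0.norm_comp_le (r : M → M') (K : ℝ) (hK0 : 0 ≤ K)
    (hr : ∀ x y, dist (r x) (r y) ≤ K * dist x y) : ‖Lip0.comp o o' r K hK0 hr‖ ≤ K :=
  Lip0.norm_mkCLM_le _ _ _ _ _

theorem delta_comp_comp (r : M → M') (K : ℝ) (hK0 : 0 ≤ K)
    (hr : ∀ x y, dist (r x) (r y) ≤ K * dist x y) (x : M) :
    (delta o x).comp (Lip0.comp o o' r K hK0 hr) = delta o' (r x) - delta o' (r o) := by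
  ext g
  rfl

/-- The operator between free spaces induced by a Lipschitz map `r : M → M'`; it sends the
evaluation at `x` to the difference of the evaluations at `r x` and `r o`. -/
noncomputable def LipFree.map (o : M) (o' : M') (r : M → M') (K : ℝ) (hK0 : 0 ≤ K)
    (hr : ∀ x y, dist (r x) (r y) ≤ K * dist x y) : LipFree M o →L[ℝ] LipFree M' o' :=
  LipFree.ofDual (Lip0.comp o o' r K hK0 hr) (fun x => by
    rw [delta_comp_comp]
    exact Submodule.sub_mem _ (delta_mem _) (delta_mem _))

theorem LipFree.map_d (r : M → M') (K : ℝ) (hK0 : 0 ≤ K)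
    (hr : ∀ x y, dist (r x) (r y) ≤ K * dist x y) (x : M) :
    LipFree.map o o' r K hK0 hr (LipFree.d o x) = LipFree.d o' (r x) - LipFree.d o' (r o) := by
  apply LipFree.ext
  rw [LipFree.coe_sub]
  exact delta_comp_comp r K hK0 hr x

theorem LipFree.norm_map_le (r : M → M') (K : ℝ) (hK0 : 0 ≤ K)
    (hr : ∀ x y, dist (r x) (r y) ≤ K * dist x y) : ‖LipFree.map o o' r K hK0 hr‖ ≤ K :=
  (LipFree.norm_ofDual_le _ _).trans (Lip0.norm_comp_le r K hK0 hr)

/-- A Lipschitz map with finite range induces a finite-rank operator. -/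
theorem LipFree.finiteDimensional_range_map (r : M → M') (K : ℝ) (hK0 : 0 ≤ K)
    (hr : ∀ x y, dist (r x) (r y) ≤ K * dist x y) (hfin : (Set.range r).Finite) :
    FiniteDimensional ℝ (LinearMap.range
      ((LipFree.map o o' r K hK0 hr : LipFree M o →L[ℝ] LipFree M' o') :
        LipFree M o →ₗ[ℝ] LipFree M' o')) := by
  set V : Submodule ℝ (LipFree M' o') := Submodule.span ℝ (LipFree.d o' '' Set.range r) with hV
  have hVfin : FiniteDimensional ℝ V :=
    FiniteDimensional.span_of_finite ℝ (hfin.image _)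
  have hle : LinearMap.range
      ((LipFree.map o o' r K hK0 hr : LipFree M o →L[ℝ] LipFree M' o') :
        LipFree M o →ₗ[ℝ] LipFree M' o') ≤ V := by
    rintro _ ⟨u, rfl⟩
    refine LipFree.mem_of_d_mem _ V (Submodule.closed_of_finiteDimensional V) (fun x => ?_) u
    rw [LipFree.map_d]
    exact Submodule.sub_mem _ (Submodule.subset_span ⟨r x, ⟨x, rfl⟩, rfl⟩)
      (Submodule.subset_span ⟨r o, ⟨o, rfl⟩, rfl⟩)
  exact Submodule.finiteDimensional_of_le hle

/-- Finite-retraction criterion: if every finite subset of `M` is fixed pointwise by a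
`K`-Lipschitz self-map of `M` with finite range, then the free space has the `K`-BAP. -/
theorem HasBAP.of_finite_retractions (o : M) (K : ℝ) (hK0 : 0 ≤ K)
    (h : ∀ A : Finset M, ∃ r : M → M, (Set.range r).Finite ∧ (∀ a ∈ A, r a = a) ∧
      ∀ x y, dist (r x) (r y) ≤ K * dist x y) :
    HasBAP K (LipFree M o) := by
  classical
  refine HasBAP.of_fix (Set.range (LipFree.d o)) LipFree.dense_span K (fun F hF => ?_)
  have hch : ∀ u : LipFree M o, ∃ x : M, u ∈ F → LipFree.d o x = u := by
    intro u
    by_cases hu : u ∈ F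
    · obtain ⟨x, hx⟩ := hF hu
      exact ⟨x, fun _ => hx⟩
    · exact ⟨o, fun h => absurd h hu⟩
  choose p hp using hch
  obtain ⟨r, hfin, hfix, hlip⟩ := h (insert o (F.image p))
  refine ⟨LipFree.map o o r K hK0 hlip, LipFree.finiteDimensional_range_map r K hK0 hlip hfin,
    LipFree.norm_map_le r K hK0 hlip, fun u hu => ?_⟩
  have h1 : r (p u) = p u :=
    hfix _ (Finset.mem_insert_of_mem (Finset.mem_image_of_mem p hu))
  have h2 : r o = o := hfix _ (Finset.mem_insert_self _ _)
  rw [← hp u hu, LipFree.map_d, h1, h2, LipFree.d_base, sub_zero]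

end Vale.Agent.Lib.P090
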