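import Vale.Agent.Lib.P090.Cutoff

/-! Transfer of the bounded approximation property along Lipschitz retractions, rescaling,
disjoint unions, and the equivalence of Kalton's problem with a uniform bound over bounded
uniformly discrete spaces. -/

namespace Vale.Agent.Lib.P090

universe u

/-- The BAP of the free space passes from `M'` to `M` when `M` is a Lipschitz retract of
`M'` (no compatibility with base points is needed). -/
theorem HasBAP.of_lipschitz_retract {M M' : Type*} [MetricSpace M] [MetricSpace M'] (o : M)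
    (o' : M') (φ : M → M') (ψ : M' → M) (K K' : ℝ) (hK : 0 ≤ K) (hK' : 0 ≤ K')
    (hφ : ∀ x y, dist (φ x) (φ y) ≤ K * dist x y)
    (hψ : ∀ x y, dist (ψ x) (ψ y) ≤ K' * dist x y)
    (hψφ : ∀ x, ψ (φ x) = x) {a : ℝ} (h : HasBAP a (LipFree M' o')) :
    HasBAP (K' * a * K) (LipFree M o) := by
  refine HasBAP.of_retract (LipFree.map o o' φ K hK hφ) (LipFree.map o' o ψ K' hK' hψ) ?_
    (LipFree.norm_map_le _ _ _ _) (LipFree.norm_map_le _ _ _ _) h
  have hcomp : (LipFree.map o' o ψ K' hK' hψ).comp (LipFree.map o o' φ K hK hφ)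
      = ContinuousLinearMap.id ℝ (LipFree M o) := by
    apply LipFree.ext_of_d
    intro x
    show LipFree.map o' o ψ K' hK' hψ (LipFree.map o o' φ K hK hφ (LipFree.d o x)) = LipFree.d o x
    rw [LipFree.map_d, map_sub, LipFree.map_d, LipFree.map_d, hψφ, hψφ, LipFree.d_base]
    abel
  intro u
  have := congrArg (fun T : LipFree M o →L[ℝ] LipFree M o => T u) hcomp
  exact this

/-- The metric of `M` multiplied by `c > 0`, as a new metric space structure on `M`. -/
@[reducible] noncomputable def scaledMetric (M : Type*) [MetricSpace M] (c : ℝ) (hc : 0 < c) :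
    MetricSpace M where
  dist x y := c * dist x y
  dist_self x := by simp
  dist_comm x y := by rw [dist_comm]
  dist_triangle x y z := by
    have := dist_triangle x y z
    nlinarith
  eq_of_dist_eq_zero := by
    intro x y h
    rcases mul_eq_zero.mp h with h | h
    · exact absurd h hc.ne'
    · exact eq_of_dist_eq_zero h

theorem scaledMetric_dist (M : Type*) [m : MetricSpace M] (c : ℝ) (hc : 0 < c) (x y : M) :
    @dist M (scaledMetric M c hc).toDist x y = c * @dist M m.toDist x y := rfl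

/-- The BAP constant of the free space is invariant under rescaling of the metric. -/
theorem HasBAP.of_scaled (M : Type*) [m : MetricSpace M] (o : M) (c : ℝ) (hc : 0 < c) {a : ℝ}
    (h : @HasBAP a (@LipFree M (scaledMetric M c hc) o) _ _) : HasBAP a (LipFree M o) := by
  have h1 := @HasBAP.of_lipschitz_retract M M m (scaledMetric M c hc) o o id id c c⁻¹ hc.le
    (inv_nonneg.mpr hc.le)
    (fun x y => by
      show @dist M (scaledMetric M c hc).toDist x y ≤ c * dist x y
      rw [scaledMetric_dist])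
    (fun x y => by
      show dist x y ≤ c⁻¹ * @dist M (scaledMetric M c hc).toDist x y
      rw [scaledMetric_dist, ← mul_assoc, inv_mul_cancel₀ hc.ne', one_mul])
    (fun x => rfl) a h
  have h2 : c⁻¹ * a * c = a := by field_simp
  rw [h2] at h1
  exact h1

section SigmaSpace

attribute [local instance] Metric.Sigma.metricSpace

/-- The BAP of the free space of a disjoint union (with the metric of
`Metric.Sigma.metricSpace`) passes to each component, with the same constant. -/
theorem HasBAP.of_sigma {ι : Type*} (E : ι → Type*) [∀ i, MetricSpace (E i)] (i : ι)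
    (o : E i) (w : Σ j, E j) {a : ℝ} (h : HasBAP a (LipFree (Σ j, E j) w)) :
    HasBAP a (LipFree (E i) o) := by
  classical
  let ψ : (Σ j, E j) → E i := fun p =>
    if hp : p.1 = i then hp ▸ p.2 else Nonempty.some ⟨o⟩
  have hψ : ∀ p q : Σ j, E j, dist (ψ p) (ψ q) ≤ 1 * dist p q := by
    rintro ⟨j, x⟩ ⟨k, y⟩
    rw [one_mul]
    by_cases hj : j = i <;> by_cases hk : k = i
    · subst hj; subst hk
      have h1 : ψ ⟨k, x⟩ = x := by simp [ψ]
      have h2 : ψ ⟨k, y⟩ = y := by simp [ψ]
      rw [h1, h2]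
      exact le_of_eq (Metric.Sigma.dist_same k x y).symm
    · subst hj
      have h1 : ψ ⟨j, x⟩ = x := by simp [ψ]
      have h2 : ψ ⟨k, y⟩ = Nonempty.some ⟨o⟩ := by simp [ψ, hk]
      rw [h1, h2]
      have h3 : dist (⟨j, x⟩ : Σ j, E j) ⟨k, y⟩
          = dist x (Nonempty.some ⟨x⟩) + 1 + dist (Nonempty.some ⟨y⟩) y :=
        Metric.Sigma.dist_ne (Ne.symm hk) x y
      rw [h3]
      have h4 : (0 : ℝ) ≤ dist (Nonempty.some ⟨y⟩) y := dist_nonneg
      have h5 : dist x (Nonempty.some ⟨o⟩) = dist x (Nonempty.some ⟨x⟩) := rfl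
      linarith
    · subst hk
      have h1 : ψ ⟨j, x⟩ = Nonempty.some ⟨o⟩ := by simp [ψ, hj]
      have h2 : ψ ⟨k, y⟩ = y := by simp [ψ]
      rw [h1, h2]
      have h3 : dist (⟨j, x⟩ : Σ j, E j) ⟨k, y⟩
          = dist x (Nonempty.some ⟨x⟩) + 1 + dist (Nonempty.some ⟨y⟩) y :=
        Metric.Sigma.dist_ne hj x y
      rw [h3]
      have h4 : (0 : ℝ) ≤ dist x (Nonempty.some ⟨x⟩) := dist_nonneg
      have h5 : dist (Nonempty.some ⟨o⟩) y = dist (Nonempty.some ⟨y⟩) y := rfl
      linarith
    · have h1 : ψ ⟨j, x⟩ = Nonempty.some ⟨o⟩ := by simp [ψ, hj]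
      have h2 : ψ ⟨k, y⟩ = Nonempty.some ⟨o⟩ := by simp [ψ, hk]
      rw [h1, h2, dist_self]
      exact dist_nonneg
  have hφ : ∀ x y : E i, dist (Sigma.mk i x : Σ j, E j) (Sigma.mk i y) ≤ 1 * dist x y := by
    intro x y
    rw [one_mul]
    exact le_of_eq (Metric.Sigma.dist_same i x y)
  have h1 := HasBAP.of_lipschitz_retract o w (Sigma.mk i) ψ 1 1 zero_le_one zero_le_one hφ hψ
    (fun x => by simp [ψ]) h
  have h2 : (1 : ℝ) * a * 1 = a := by ring
  rw [h2] at h1
  exact h1

/-- A disjoint union of spaces that are `1`-separated is `1`-separated. -/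
theorem sigma_separated {ι : Type*} (E : ι → Type*) [∀ i, MetricSpace (E i)]
    (hE : ∀ i, ∀ x y : E i, x ≠ y → 1 ≤ dist x y) (p q : Σ j, E j) (hpq : p ≠ q) :
    1 ≤ dist p q := by
  obtain ⟨j, x⟩ := p
  obtain ⟨k, y⟩ := q
  by_cases hjk : j = k
  · subst hjk
    have hxy : x ≠ y := fun h => hpq (by rw [h])
    rw [Metric.Sigma.dist_same]
    exact hE j x y hxy
  · exact Metric.Sigma.one_le_dist_of_ne hjk x y

end SigmaSpace

/-- Closed balls of a uniformly discrete space are uniformly discrete. -/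
theorem UniformlyDiscrete.subtype {M : Type*} [MetricSpace M] (h : UniformlyDiscrete M)
    (s : Set M) : UniformlyDiscrete s := by
  obtain ⟨θ, hθ, hsep⟩ := h
  exact ⟨θ, hθ, fun x y hxy => hsep x.1 y.1 (fun h => hxy (Subtype.ext h))⟩

/-- Kalton's problem is equivalent to a uniform bound on the BAP constants of the free spaces
of bounded uniformly discrete spaces; moreover the constant passes from bounded spaces to
all spaces without loss. -/
theorem kalton_equiv :
    ((∀ (M : Type u) [MetricSpace M] (o : M), UniformlyDiscrete M →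
        ∃ lam : ℝ, HasBAP lam (LipFree M o)) ↔
      ∃ lam : ℝ, ∀ (M : Type u) [MetricSpace M] (o : M), UniformlyDiscrete M →
        (∃ D : ℝ, ∀ x y : M, dist x y ≤ D) → HasBAP lam (LipFree M o)) ∧
    (∀ lam : ℝ, (∀ (M : Type u) [MetricSpace M] (o : M), UniformlyDiscrete M →
        (∃ D : ℝ, ∀ x y : M, dist x y ≤ D) → HasBAP lam (LipFree M o)) →
      ∀ (M : Type u) [MetricSpace M] (o : M), UniformlyDiscrete M →
        HasBAP lam (LipFree M o)) := by
  have part2 : ∀ lam : ℝ, (∀ (M : Type u) [MetricSpace M] (o : M), UniformlyDiscrete M →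
        (∃ D : ℝ, ∀ x y : M, dist x y ≤ D) → HasBAP lam (LipFree M o)) →
      ∀ (M : Type u) [MetricSpace M] (o : M), UniformlyDiscrete M →
        HasBAP lam (LipFree M o) := by
    intro lam hb M _ o hM
    refine HasBAP.of_balls o lam (fun r hr => ?_)
    refine hb (Metric.closedBall o r) (ballBase o hr) (hM.subtype _) ⟨r + r, fun x y => ?_⟩
    have hx : dist x.1 o ≤ r := Metric.mem_closedBall.mp x.2
    have hy : dist y.1 o ≤ r := Metric.mem_closedBall.mp y.2
    have h1 : dist x y = dist x.1 y.1 := rfl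
    have h2 := dist_triangle x.1 o y.1
    rw [dist_comm o y.1] at h2
    linarith
  refine ⟨⟨fun hall => ?_, fun ⟨lam, hlam⟩ M _ o hM => ⟨lam, part2 lam hlam M o hM⟩⟩, part2⟩
  -- the uniform bound, by contradiction and a disjoint union
  by_contra hcon
  have hbad : ∀ lam : ℝ, ∃ (M : Type u) (m : MetricSpace M) (o : M),
      @UniformlyDiscrete M m ∧ (∃ D : ℝ, ∀ x y : M, dist x y ≤ D) ∧
        ¬ @HasBAP lam (@LipFree M m o) _ _ := by
    intro lam
    by_contra hno
    apply hcon
    refine ⟨lam, fun M m o hM hD => ?_⟩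
    by_contra hB
    exact hno ⟨M, m, o, hM, hD, hB⟩
  choose B m o hud hbd hnot using fun n : ℕ => hbad (n : ℝ)
  choose θ hθ hsep using hud
  -- rescale each space to be `1`-separated
  let m' : ∀ n, MetricSpace (B n) := fun n => @scaledMetric (B n) (m n) (θ n)⁻¹ (inv_pos.mpr (hθ n))
  have hsep' : ∀ n, ∀ x y : B n, x ≠ y → 1 ≤ @dist (B n) (m' n).toDist x y := by
    intro n x y hxy
    have h1 := hsep n x y hxy
    show 1 ≤ (θ n)⁻¹ * @dist (B n) (m n).toDist x y
    rw [inv_mul_eq_div, le_div_iff₀ (hθ n), one_mul]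
    exact h1
  let W : MetricSpace (Σ n, B n) := @Metric.Sigma.metricSpace ℕ B m'
  have hW : @UniformlyDiscrete (Σ n, B n) W :=
    ⟨1, one_pos, @sigma_separated ℕ B m' hsep'⟩
  obtain ⟨lam, hlam⟩ := @hall (Σ n, B n) W ⟨0, o 0⟩ hW
  obtain ⟨n, hn⟩ := exists_nat_ge lam
  apply hnot n
  have h1 : @HasBAP lam (@LipFree (B n) (m' n) (o n)) _ _ :=
    @HasBAP.of_sigma ℕ B m' n (o n) ⟨0, o 0⟩ lam hlam
  have h2 : @HasBAP lam (@LipFree (B n) (m n) (o n)) _ _ :=
    @HasBAP.of_scaled (B n) (m n) (o n) (θ n)⁻¹ (inv_pos.mpr (hθ n)) lam h1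
  exact h2.mono hn

end Vale.Agent.Lib.P090
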